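import Crest.Agent.N250.W.Max

/-!
# Row 250, sector toolbox (helper92): flat + exponentially small jumps ⇒ exponentially small
-/

set_option autoImplicit false
open Set Metric Filter Topology Real

noncomputable section

namespace Crest.Agent.N250.W

variable {E : Type*} [NormedAddCommGroup E] [NormedSpace ℂ E]

theorem exp_neg_ge {u : ℝ} (hu : u ≤ 2) : 1 - u + u ^ 2 / 4 ≤ exp (-u) := by
  have h1 : 1 - u / 2 ≤ exp (-(u / 2)) := by linarith [add_one_le_exp (-(u / 2))]
  have h2 : exp (-u) = exp (-(u / 2)) ^ 2 := by rw [← exp_nat_mul]; ring_nf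
  rw [h2]
  nlinarith [pow_le_pow_left₀ (by linarith : 0 ≤ 1 - u / 2) h1 2]

/-- core: on the half plane `R < re w` a function with `‖H‖ e^{N x} → 0` is bounded by the boundary
layer and the errors -/
theorem flat_core {H : ℂ → E} {e : ℂ → ℝ} {R η N B ε C : ℝ} (hη : 0 < η) (hη1 : η ≤ 1)
    (hB0 : 0 ≤ B) (hε0 : 0 ≤ ε)
    (hA : Apx {w | R < w.re} η H e)
    (hε : ∀ w : ℂ, R < w.re → e w * exp ((N + 1) * w.re) ≤ ε)
    (hB : ∀ w : ℂ, R < w.re → w.re ≤ R + η → ‖H w‖ * exp (N * w.re) ≤ B)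
    (hC : ∀ w : ℂ, R < w.re → ‖H w‖ * exp ((N + 1) * w.re) ≤ C) :
    ∀ w : ℂ, R < w.re → ‖H w‖ * exp (N * w.re) ≤
      exp (exp (-R)) * (B + 2 * (exp 1 * (exp (-R) + 8 / η ^ 2)) * ε) := by
  set K := exp (exp (-R)) with hK
  set D := exp 1 * (exp (-R) + 8 / η ^ 2) with hD
  have hK0 : 0 < K := exp_pos _
  have hD0 : 0 < D := by positivity
  set φ : ℂ → ℝ := fun w => N * w.re + exp (-w.re) with hφ
  have hφ1 : ∀ w : ℂ, R < w.re → exp (φ w) ≤ exp (N * w.re) * K := fun w hw => by
    rw [hK, ← exp_add]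
    exact exp_le_exp.2 (by simp only [hφ]; linarith [exp_le_exp.2 (neg_le_neg hw.le)])
  have hx : ∀ w : ℂ, exp (N * w.re) = exp ((N + 1) * w.re) * exp (-w.re) := fun w => by
    rw [← exp_add]; ring_nf
  have hV : ∀ w : ℂ, R < w.re → ‖H w‖ * exp (φ w) ≤ C * K * exp (-w.re) := fun w hw => by
    have h1 := mul_le_mul_of_nonneg_left (hφ1 w hw) (norm_nonneg (H w))
    have h2 := mul_le_mul_of_nonneg_right (hC w hw) (mul_pos hK0 (exp_pos (-w.re))).le
    rw [hx] at h1
    nlinarith
  have key : ∀ τ : ℝ, 0 < τ → ∀ w ∈ {w : ℂ | R < w.re},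
      ‖H w‖ * exp (φ w) ≤ K * (B + 2 * D * ε) + τ := by
    intro τ hτ
    obtain ⟨X, hX⟩ : ∃ X : ℝ, ∀ x, X ≤ x → C * K * exp (-x) ≤ τ := by
      have ht : Tendsto (fun x : ℝ => C * K * exp (-x)) atTop (𝓝 (C * K * 0)) :=
        tendsto_exp_neg_atTop_nhds_zero.const_mul _
      rw [mul_zero] at ht
      exact eventually_atTop.1 (ht.eventually (ge_mem_nhds hτ))
    have hBn : 0 ≤ K * (B + 2 * D * ε) := by positivity
    refine am (V := fun w => ‖H w‖ * exp (φ w)) (κ := exp (-(exp (-X) * η ^ 2 / 8)))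
      (exp_pos _).le (exp_lt_one_iff.2 (by have := exp_pos (-X); nlinarith [mul_pos this (pow_pos hη 2)]))
      ⟨|C| * K * exp (-R), fun w hw => (hV w hw).trans ?_⟩ ?_
    · exact mul_le_mul (mul_le_mul_of_nonneg_right (le_abs_self _) hK0.le)
        (exp_le_exp.2 (neg_le_neg (le_of_lt hw))) (exp_pos _).le (by positivity)
    intro M hM w₀ hw₀
    by_cases h1 : w₀.re ≤ R + η
    · left
      have h2 := mul_le_mul_of_nonneg_left (hφ1 w₀ hw₀) (norm_nonneg (H w₀))
      have h3 := mul_le_mul_of_nonneg_right (hB w₀ hw₀ h1) hK0.le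
      have h4 : 0 ≤ K * (2 * D * ε) := by positivity
      nlinarith
    by_cases h2 : X ≤ w₀.re
    · left
      linarith [hV w₀ hw₀, hX _ h2]
    right
    push Not at h1 h2
    set p := exp (-w₀.re) with hp
    have hp0 : 0 < p := exp_pos _
    set γ := p * η ^ 2 / 8 with hγ
    have hγ0 : 0 < γ := by positivity
    refine ⟨exp (-γ), exp_le_exp.2 (neg_le_neg ?_), ?_⟩
    · have : exp (-X) ≤ p := exp_le_exp.2 (by linarith)
      have := mul_le_mul_of_nonneg_right this (sq_nonneg η)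
      linarith
    have hs : closedBall w₀ η ⊆ {w : ℂ | R < w.re} := fun w hw => by
      have a1 := abs_le.1 (abs_re_sub_le hw)
      show R < w.re
      linarith [a1.1]
    obtain ⟨g, hg, hge⟩ := hA w₀ η hη le_rfl hs
    set l : ℂ → ℂ := fun w => (N : ℂ) * w + (p : ℂ) * (1 - (w - w₀) + (w - w₀) ^ 2 / 8) with hl
    have hlre : ∀ w, (l w).re = N * w.re + p * (1 - (w.re - w₀.re) +
        ((w.re - w₀.re) ^ 2 - (w.im - w₀.im) ^ 2) / 8) := by
      intro w
      simp only [hl, Complex.add_re, Complex.sub_re, Complex.sub_im, Complex.ofReal_re,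
        Complex.ofReal_im, Complex.div_ofNat_re, pow_two, Complex.mul_re, Complex.one_re, zero_mul,
        sub_zero]
    have h3 := step (H := H) (l := l) (φ := φ) (M := M) (ε := K * ε * (exp 1 * p)) (γ := γ) hη hγ0.le
      hg (by rw [hl]; fun_prop) hge (by rw [hlre]; simp [hφ, hp])
      (fun w hw => by
        have a1 := abs_le.1 (abs_re_sub_le (sphere_subset_closedBall hw))
        have a2 := sq_add_sq_of_sphere hw
        have a3 := exp_neg_ge (u := w.re - w₀.re) (by linarith [a1.2])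
        have a4 : exp (-w.re) = p * exp (-(w.re - w₀.re)) := by rw [hp, ← exp_add]; ring_nf
        rw [hlre]
        simp only [hφ]
        rw [a4, hγ, ← a2]
        nlinarith [mul_le_mul_of_nonneg_left a3 hp0.le])
      (fun w hw => hM w (hs hw))
      (fun w hw => by
        have a1 := abs_le.1 (abs_re_sub_le hw)
        have a2 : exp (-w.re) ≤ exp 1 * p := by
          rw [hp, ← exp_add]
          exact exp_le_exp.2 (by linarith [a1.1])
        have a3 : 0 ≤ e w := (norm_nonneg _).trans (hge w hw)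
        have a4 := mul_le_mul_of_nonneg_left (hφ1 w (hs hw)) a3
        rw [hx] at a4
        have a5 : e w * exp ((N + 1) * w.re) * exp (-w.re) ≤ ε * (exp 1 * p) :=
          mul_le_mul (hε w (hs hw)) a2 (exp_pos _).le hε0
        nlinarith [mul_le_mul_of_nonneg_left a5 hK0.le])
    have h4 : γ / (1 + γ) ≤ 1 - exp (-γ) := by
      have a1 : exp (-γ) * (1 + γ) ≤ 1 := by
        have a2 := mul_le_mul_of_nonneg_left (add_one_le_exp γ) (exp_pos (-γ)).le
        rw [← exp_add, neg_add_cancel, exp_zero] at a2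
        linarith
      rw [div_le_iff₀ (by positivity)]
      nlinarith
    have h5 : exp 1 * p ≤ γ / (1 + γ) * D := by
      have a1 : p ≤ exp (-R) := exp_le_exp.2 (neg_le_neg (le_of_lt hw₀))
      rw [div_mul_eq_mul_div, le_div_iff₀ (by positivity), hD]
      have a3 : γ * (8 / η ^ 2) = p := by rw [hγ]; field_simp
      have a4 : p * (1 + γ) ≤ γ * (exp (-R) + 8 / η ^ 2) := by
        rw [mul_add γ, a3]
        nlinarith [mul_le_mul_of_nonneg_left a1 hγ0.le]
      nlinarith [mul_le_mul_of_nonneg_left a4 (exp_pos 1).le]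
    have h6 : exp 1 * p ≤ (1 - exp (-γ)) * D :=
      h5.trans (mul_le_mul_of_nonneg_right h4 hD0.le)
    have h7 := mul_le_mul_of_nonneg_left h6 (mul_nonneg hK0.le hε0)
    have h8 : 0 ≤ 1 - exp (-γ) := (div_pos hγ0 (by positivity)).le.trans h4
    have h9 : 0 ≤ (1 - exp (-γ)) * (K * B + τ) := by positivity
    nlinarith
  intro w hw
  have h1 : ‖H w‖ * exp (φ w) ≤ K * (B + 2 * D * ε) :=
    le_of_forall_pos_le_add fun τ hτ => key τ hτ w hw
  refine le_trans (mul_le_mul_of_nonneg_left (exp_le_exp.2 ?_) (norm_nonneg _)) h1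
  simp only [hφ]
  linarith [exp_pos (-w.re)]

theorem lin_sub_exp_le {c x y : ℝ} (hc : 0 ≤ c) :
    c * exp x * y - c * exp y ≤ c * exp x * x - c * exp x := by
  have h1 : exp y = exp x * exp (y - x) := by rw [← exp_add]; ring_nf
  have h2 := mul_le_mul_of_nonneg_left (add_one_le_exp (y - x)) (mul_nonneg hc (exp_pos x).le)
  rw [h1]
  nlinarith

/-- **Flat + errors of rate `c` ⇒ rate `c`** (up to the factor `e^{re w}`). -/
theorem flat_exp {H : ℂ → E} {R η c C : ℝ} (hη : 0 < η) (hc : 0 < c)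
    (hA : Apx {w | R < w.re} η H fun w => C * exp (-c * exp w.re))
    (hF : ∀ N : ℕ, ∃ C', ∀ w : ℂ, R < w.re → ‖H w‖ ≤ C' * exp (-N * w.re)) :
    ∃ C', 0 ≤ C' ∧ ∀ w : ℂ, R < w.re → ‖H w‖ ≤ C' * exp w.re * exp (-c * exp w.re) := by
  set η' := min η 1 with hη'
  have hη0 : 0 < η' := lt_min hη one_pos
  have hη1 : η' ≤ 1 := min_le_right _ _
  have hA' : Apx {w | R < w.re} η' H fun w => |C| * exp (-c * exp w.re) :=
    hA.mono subset_rfl (min_le_left _ _) fun w _ =>
      mul_le_mul_of_nonneg_right (le_abs_self _) (exp_pos _).le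
  obtain ⟨C₀, hC₀⟩ := hF 0
  simp only [Nat.cast_zero, neg_zero, zero_mul, exp_zero, mul_one] at hC₀
  set K := exp (exp (-R)) with hK
  set D := exp 1 * (exp (-R) + 8 / η' ^ 2) with hD
  set X := max (R + 2) (-Real.log c) with hX
  refine ⟨|C₀| * exp (-R) * exp (c * exp X) + K * (|C₀| * exp 1 * exp (-R) + 2 * D * |C|),
    by positivity, fun w hw => ?_⟩
  have hR : 1 ≤ exp (-R) * exp w.re := by
    rw [← exp_add]
    exact one_le_exp (by linarith)
  by_cases hx : w.re ≤ X
  · have h1 : 1 ≤ exp (c * exp X) * exp (-c * exp w.re) := by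
      rw [← exp_add]
      exact one_le_exp (by nlinarith [mul_le_mul_of_nonneg_left (exp_le_exp.2 hx) hc.le])
    have h2 : |C₀| * 1 * 1 ≤ |C₀| * (exp (-R) * exp w.re) *
        (exp (c * exp X) * exp (-c * exp w.re)) := by gcongr
    have h3 : 0 ≤ K * (|C₀| * exp 1 * exp (-R) + 2 * D * |C|) * exp w.re * exp (-c * exp w.re) := by
      positivity
    nlinarith [hC₀ w hw, le_abs_self C₀]
  push Not at hx
  have hx1 : R + 2 < w.re := (le_max_left _ _).trans_lt hx
  have hx2 : 1 ≤ c * exp w.re := by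
    have h1 : exp (-Real.log c) ≤ exp w.re := exp_le_exp.2 ((le_max_right _ _).trans hx.le)
    rw [exp_neg, exp_log hc] at h1
    have := mul_le_mul_of_nonneg_left h1 hc.le
    rwa [mul_inv_cancel₀ hc.ne'] at this
  set N := c * exp w.re - 1 with hN
  have hN0 : 0 ≤ N := by linarith
  obtain ⟨C₁, hC₁⟩ := hF ⌈N + 1⌉₊
  have h1 := flat_core (H := H) (R := R) (N := N) (B := |C₀| * exp (N * (R + 1)))
    (ε := |C| * exp (c * exp w.re * w.re - c * exp w.re))
    (C := |C₁| * exp ((N + 1 - ⌈N + 1⌉₊) * R)) hη0 hη1 (by positivity) (by positivity) hA'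
    (fun z _ => by
      rw [mul_assoc, ← exp_add]
      refine mul_le_mul_of_nonneg_left (exp_le_exp.2 ?_) (abs_nonneg _)
      have := lin_sub_exp_le (x := w.re) (y := z.re) hc.le
      rw [hN]
      linarith)
    (fun z hz hz' => mul_le_mul ((hC₀ z hz).trans (le_abs_self _))
      (exp_le_exp.2 (mul_le_mul_of_nonneg_left (by linarith) hN0)) (exp_pos _).le (abs_nonneg _))
    (fun z hz => by
      refine (mul_le_mul_of_nonneg_right ((hC₁ z hz).trans (mul_le_mul_of_nonneg_right
        (le_abs_self _) (exp_pos _).le)) (exp_pos _).le).trans ?_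
      rw [mul_assoc, ← exp_add]
      refine mul_le_mul_of_nonneg_left (exp_le_exp.2 ?_) (abs_nonneg _)
      have := Nat.le_ceil (N + 1)
      nlinarith) w hw
  have h2 : ‖H w‖ = ‖H w‖ * exp (N * w.re) * exp (-(N * w.re)) := by
    rw [mul_assoc, ← exp_add]
    simp
  have h3 : exp (N * (R + 1)) * exp (-(N * w.re)) ≤
      exp 1 * (exp (-R) * exp w.re) * exp (-c * exp w.re) := by
    have a1 : exp (N * (R + 1)) * exp (-(N * w.re)) ≤ exp 1 * exp (-c * exp w.re) := by
      rw [← exp_add, ← exp_add]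
      refine exp_le_exp.2 ?_
      have := mul_le_mul_of_nonneg_left (by linarith : R + 1 - w.re ≤ -1) hN0
      nlinarith
    have a2 : exp 1 * 1 * exp (-c * exp w.re) ≤
        exp 1 * (exp (-R) * exp w.re) * exp (-c * exp w.re) := by gcongr
    linarith
  have h4 : exp (c * exp w.re * w.re - c * exp w.re) * exp (-(N * w.re)) =
      exp w.re * exp (-c * exp w.re) := by
    rw [← exp_add, ← exp_add, hN]
    ring_nf
  have hK0 : 0 < K := exp_pos _
  have hD0 : 0 < D := by positivity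
  rw [h2]
  refine (mul_le_mul_of_nonneg_right h1 (exp_pos _).le).trans ?_
  have h5 : K * (|C₀| * exp (N * (R + 1)) + 2 * D *
      (|C| * exp (c * exp w.re * w.re - c * exp w.re))) * exp (-(N * w.re)) =
      K * |C₀| * (exp (N * (R + 1)) * exp (-(N * w.re))) + K * (2 * D * |C|) *
        (exp (c * exp w.re * w.re - c * exp w.re) * exp (-(N * w.re))) := by ring
  rw [h5, h4]
  have h6 := mul_le_mul_of_nonneg_left h3 (mul_nonneg hK0.le (abs_nonneg C₀))
  have h7 : 0 ≤ |C₀| * exp (-R) * exp (c * exp X) * exp w.re * exp (-c * exp w.re) := by positivity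
  nlinarith

end Crest.Agent.N250.W

end
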