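import Crest.Agent.N250.W.Max

/-!
# Row 250, sector toolbox (helper92): Watson's lemma and the relative Watson lemma
-/

set_option autoImplicit false
open Set Metric Filter Topology Real

noncomputable section

namespace Crest.Agent.N250.W

variable {E : Type*} [NormedAddCommGroup E] [NormedSpace ℂ E]

theorem exp_sub_bdd {Λ d κ : ℝ} (hΛ : 0 ≤ Λ) (hd : 0 < d) (hκ : 1 < κ) :
    ∃ M, ∀ x : ℝ, Λ * exp x - d * exp (κ * x) ≤ M := by
  refine ⟨Λ * exp (Λ / (d * (κ - 1))), fun x => ?_⟩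
  have hk : 0 < d * (κ - 1) := mul_pos hd (by linarith)
  rcases le_total x (Λ / (d * (κ - 1))) with h | h
  · have h1 := mul_le_mul_of_nonneg_left (exp_le_exp.2 h) hΛ
    have h2 := mul_pos hd (exp_pos (κ * x))
    linarith
  · have h1 : exp (κ * x) = exp x * exp ((κ - 1) * x) := by rw [← exp_add]; ring_nf
    have h2 : (κ - 1) * x ≤ exp ((κ - 1) * x) := by linarith [add_one_le_exp ((κ - 1) * x)]
    have h3 : Λ ≤ d * ((κ - 1) * x) := by
      rw [div_le_iff₀ hk] at h
      linarith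
    have h4 : Λ ≤ d * exp ((κ - 1) * x) := h3.trans (mul_le_mul_of_nonneg_left h2 hd.le)
    have h5 := mul_le_mul_of_nonneg_left h4 (exp_pos x).le
    have h6 := mul_nonneg hΛ (exp_pos (Λ / (d * (κ - 1)))).le
    rw [h1]
    nlinarith

/-- the quantitative core -/
theorem core {H : ℂ → E} {R θ β η c C Λ ε : ℝ} (hη : 0 < η) (hβ : 0 < β) (hβ2 : β < π / 2)
    (hΛ : 0 ≤ Λ) (hbl : Λ * (β + η) ≤ c) (hC0 : 0 ≤ C) (hε : 0 ≤ ε)
    (hC : ∀ w ∈ HS R (θ - π / 2 + β) (θ + π / 2 - β), ‖H w‖ ≤ C * exp (-c * exp w.re))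
    (hA : Apx (HS R (θ - π / 2 + β) (θ + π / 2 - β)) η H fun w => ε * exp (-Λ * exp w.re)) :
    ∀ w ∈ HS R (θ - π / 2 + β) (θ + π / 2 - β),
      ‖H w‖ * exp (Λ * exp w.re * cos (w.im - θ)) ≤
        exp (π ^ 2) * (C * exp (Λ * exp (R + η)) + 2 * ε / (1 - exp (-(η ^ 2 / 2)))) := by
  set U := HS R (θ - π / 2 + β) (θ + π / 2 - β) with hU
  set B := exp (π ^ 2) * (C * exp (Λ * exp (R + η)) + 2 * ε / (1 - exp (-(η ^ 2 / 2)))) with hB
  have hc0 : 0 ≤ c := (mul_nonneg hΛ (by linarith)).trans hbl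
  set κ := (π / 2 - β / 2) / (π / 2 - β) with hκ
  have hb0 : 0 < π / 2 - β := by linarith
  have hκ1 : 1 < κ := by rw [hκ, lt_div_iff₀ hb0]; linarith
  have hκ2 : κ * (π / 2 - β) = π / 2 - β / 2 := by rw [hκ]; exact div_mul_cancel₀ _ hb0.ne'
  have hy : ∀ w ∈ U, |w.im - θ| < π / 2 - β := fun w hw =>
    abs_lt.2 ⟨by linarith [hw.2.1], by linarith [hw.2.2]⟩
  have hs0 : 0 < cos (π / 2 - β / 2) := cos_pos_of_mem_Ioo ⟨by linarith, by linarith⟩
  have hcos : ∀ w ∈ U, cos (π / 2 - β / 2) ≤ cos (κ * (w.im - θ)) := fun w hw => by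
    rw [← cos_abs (κ * (w.im - θ))]
    refine cos_le_cos_of_nonneg_of_le_pi (abs_nonneg _) (by linarith [pi_pos]) ?_
    rw [abs_mul, abs_of_pos (by linarith : 0 < κ), ← hκ2]
    exact mul_le_mul_of_nonneg_left (hy w hw).le (by linarith)
  have hy2 : ∀ w ∈ U, (w.im - θ) ^ 2 ≤ π ^ 2 := fun w hw => by
    rw [← sq_abs]
    exact pow_le_pow_left₀ (abs_nonneg _) (by linarith [hy w hw, pi_pos]) 2
  have hk1 : exp (-(η ^ 2 / 2)) < 1 := exp_lt_one_iff.2 (by nlinarith)
  have hk2 : 0 < 1 - exp (-(η ^ 2 / 2)) := by linarith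
  have hB1 : exp (π ^ 2) * (C * exp (Λ * exp (R + η))) ≤ B := by
    rw [hB]
    have : 0 ≤ 2 * ε / (1 - exp (-(η ^ 2 / 2))) := by positivity
    exact mul_le_mul_of_nonneg_left (by linarith) (exp_pos _).le
  have hB2 : 2 * (exp (π ^ 2) * ε) ≤ (1 - exp (-(η ^ 2 / 2))) * B := by
    have h1 : exp (π ^ 2) * (2 * ε / (1 - exp (-(η ^ 2 / 2)))) ≤ B := by
      rw [hB]
      have : 0 ≤ C * exp (Λ * exp (R + η)) := by positivity
      exact mul_le_mul_of_nonneg_left (by linarith) (exp_pos _).le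
    have h2 := mul_le_mul_of_nonneg_left h1 hk2.le
    have h3 : (1 - exp (-(η ^ 2 / 2))) * (exp (π ^ 2) * (2 * ε / (1 - exp (-(η ^ 2 / 2))))) =
        2 * (exp (π ^ 2) * ε) := by field_simp
    linarith
  have key : ∀ δ : ℝ, 0 < δ → ∀ w ∈ U, ‖H w‖ * exp (Λ * exp w.re * cos (w.im - θ) -
      δ * (exp (κ * w.re) * cos (κ * (w.im - θ))) + (w.im - θ) ^ 2) ≤ B := by
    intro δ hδ
    set φ : ℂ → ℝ := fun w => Λ * exp w.re * cos (w.im - θ) -
      δ * (exp (κ * w.re) * cos (κ * (w.im - θ))) + (w.im - θ) ^ 2 with hφ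
    have hneg : ∀ w ∈ U, 0 ≤ δ * (exp (κ * w.re) * cos (κ * (w.im - θ))) := fun w hw =>
      mul_nonneg hδ.le (mul_nonneg (exp_pos _).le (hs0.le.trans (hcos w hw)))
    have hφ1 : ∀ w ∈ U, φ w ≤ Λ * exp w.re * cos (w.im - θ) + π ^ 2 := fun w hw => by
      simp only [hφ]
      linarith [hneg w hw, hy2 w hw]
    have hφ2 : ∀ w ∈ U, φ w ≤ Λ * exp w.re + π ^ 2 := fun w hw => by
      have := mul_le_mul_of_nonneg_left (cos_le_one (w.im - θ)) (mul_nonneg hΛ (exp_pos w.re).le)
      linarith [hφ1 w hw]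
    have hHC : ∀ w ∈ U, ‖H w‖ ≤ C := fun w hw => by
      have : exp (-c * exp w.re) ≤ 1 := exp_le_one_iff.2 (by nlinarith [exp_pos w.re])
      nlinarith [hC w hw]
    refine am (V := fun w => ‖H w‖ * exp (φ w)) (κ := exp (-(η ^ 2 / 2))) (exp_pos _).le hk1 ?_ ?_
    · obtain ⟨M, hM⟩ := exp_sub_bdd hΛ (mul_pos hδ hs0) hκ1
      refine ⟨C * exp (M + π ^ 2), fun w hw => ?_⟩
      refine mul_le_mul (hHC w hw) (exp_le_exp.2 ?_) (exp_pos _).le hC0
      have h1 := mul_le_mul_of_nonneg_left (cos_le_one (w.im - θ))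
        (mul_nonneg hΛ (exp_pos w.re).le)
      have h2 := mul_le_mul_of_nonneg_left (hcos w hw) (mul_pos hδ (exp_pos (κ * w.re))).le
      have h3 := hM w.re
      have h4 := hy2 w hw
      simp only [hφ]
      nlinarith
    · intro M hM w₀ hw₀
      by_cases h1 : w₀.re ≤ R + η
      · left
        refine le_trans ?_ hB1
        have h2 : exp (φ w₀) ≤ exp (π ^ 2) * exp (Λ * exp (R + η)) := by
          rw [← exp_add]
          refine exp_le_exp.2 ?_
          have := mul_le_mul_of_nonneg_left (exp_le_exp.2 h1) hΛ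
          linarith [hφ2 w₀ hw₀]
        calc ‖H w₀‖ * exp (φ w₀) ≤ C * (exp (π ^ 2) * exp (Λ * exp (R + η))) :=
              mul_le_mul (hHC w₀ hw₀) h2 (exp_pos _).le hC0
          _ = _ := by ring
      by_cases h2 : π / 2 - β - η ≤ |w₀.im - θ|
      · left
        refine le_trans ?_ hB1
        have h3 : cos (w₀.im - θ) ≤ β + η := by
          rw [← cos_abs, ← sin_pi_div_two_sub]
          refine (sin_le (by linarith [hy w₀ hw₀])).trans (by linarith)
        have h4 : Λ * cos (w₀.im - θ) ≤ c := (mul_le_mul_of_nonneg_left h3 hΛ).trans hbl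
        have h5 : exp (-c * exp w₀.re) * exp (φ w₀) ≤ exp (π ^ 2) := by
          rw [← exp_add]
          refine exp_le_exp.2 ?_
          have := mul_le_mul_of_nonneg_left h4 (exp_pos w₀.re).le
          nlinarith [hφ1 w₀ hw₀]
        have h6 : 1 ≤ exp (Λ * exp (R + η)) := one_le_exp (by positivity)
        calc ‖H w₀‖ * exp (φ w₀) ≤ C * exp (-c * exp w₀.re) * exp (φ w₀) :=
              mul_le_mul_of_nonneg_right (hC w₀ hw₀) (exp_pos _).le
          _ = C * (exp (-c * exp w₀.re) * exp (φ w₀)) := by ring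
          _ ≤ C * exp (π ^ 2) := mul_le_mul_of_nonneg_left h5 hC0
          _ ≤ _ := by
              have := mul_le_mul_of_nonneg_left h6 (mul_nonneg hC0 (exp_pos (π ^ 2)).le)
              nlinarith
      right
      push Not at h1 h2
      refine ⟨_, le_rfl, ?_⟩
      have hs : closedBall w₀ η ⊆ U := fun w hw => by
        have a1 := abs_le.1 (abs_re_sub_le hw)
        have a2 := abs_le.1 (abs_im_sub_le hw)
        have a3 := abs_lt.1 h2
        exact ⟨by linarith [a1.1], by linarith [a2.1, a3.1], by linarith [a2.2, a3.2]⟩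
      obtain ⟨g, hg, hge⟩ := hA w₀ η hη le_rfl hs
      set y₀ := w₀.im - θ with hy₀
      set l : ℂ → ℂ := fun w => (Λ : ℂ) * Complex.exp (w - θ * Complex.I) -
        (δ : ℂ) * Complex.exp (κ * (w - θ * Complex.I)) +
        ((y₀ : ℂ) ^ 2 - 2 * Complex.I * y₀ * (w - w₀) - (w - w₀) ^ 2 / 2) with hl
      have hlre : ∀ w, (l w).re = φ w - ((w.re - w₀.re) ^ 2 + (w.im - w₀.im) ^ 2) / 2 := by
        intro w
        simp only [hl, hφ, hy₀, Complex.add_re, Complex.sub_re,
          Complex.exp_re, Complex.sub_im, Complex.I_re, Complex.I_im,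
          Complex.div_ofNat_re, pow_two, Complex.mul_re, Complex.mul_im, Complex.ofReal_re,
          Complex.ofReal_im, Complex.re_ofNat, Complex.im_ofNat]
        ring_nf
      have h3 := step (H := H) (l := l) (φ := φ) (M := M) (ε := exp (π ^ 2) * ε)
        (γ := η ^ 2 / 2) hη (by positivity) hg (by rw [hl]; fun_prop) hge (by rw [hlre]; simp)
        (fun w hw => by rw [hlre, sq_add_sq_of_sphere hw]) (fun w hw => hM w (hs hw))
        (fun w hw => by
          have h4 : exp (-Λ * exp w.re) * exp (φ w) ≤ exp (π ^ 2) := by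
            rw [← exp_add]
            exact exp_le_exp.2 (by linarith [hφ2 w (hs hw)])
          have h5 := mul_le_mul_of_nonneg_left h4 hε
          nlinarith)
      linarith
  intro w hw
  have h1 : ‖H w‖ * exp (Λ * exp w.re * cos (w.im - θ) + (w.im - θ) ^ 2) ≤ B := by
    have hc : Continuous fun δ : ℝ => ‖H w‖ * exp (Λ * exp w.re * cos (w.im - θ) -
        δ * (exp (κ * w.re) * cos (κ * (w.im - θ))) + (w.im - θ) ^ 2) := by fun_prop
    have ht := (hc.tendsto 0).mono_left (nhdsWithin_le_nhds (s := Ioi (0 : ℝ)))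
    simp only [zero_mul, sub_zero] at ht
    exact le_of_tendsto ht (eventually_nhdsWithin_of_forall fun δ hδ => key δ hδ w hw)
  exact (mul_le_mul_of_nonneg_left (exp_le_exp.2 (by nlinarith)) (norm_nonneg _)).trans h1

/-- **Relative Watson lemma, one rate.**  Opening `π` around the direction `θ`, flat of rate `c > 0`,
holomorphic up to errors of rate `Λ`: then of rate `Λ cos (im w - θ)`. -/
theorem relW1 {H : ℂ → E} {R θ η c C Λ ε : ℝ} (hη : 0 < η) (hc : 0 < c) (hΛ : 0 ≤ Λ)
    (hC : ∀ w ∈ HS R (θ - π / 2) (θ + π / 2), ‖H w‖ ≤ C * exp (-c * exp w.re))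
    (hA : Apx (HS R (θ - π / 2) (θ + π / 2)) η H fun w => ε * exp (-Λ * exp w.re)) :
    ∃ C', 0 ≤ C' ∧ ∀ w ∈ HS R (θ - π / 2) (θ + π / 2),
      ‖H w‖ ≤ C' * exp (-(Λ * cos (w.im - θ)) * exp w.re) := by
  set β := min (min η 1) (c / (2 * (Λ + 1))) with hβ
  have hβ0 : 0 < β := lt_min (lt_min hη one_pos) (by positivity)
  have hβ1 : β ≤ η := (min_le_left _ _).trans (min_le_left _ _)
  have hβ2 : β ≤ 1 := (min_le_left _ _).trans (min_le_right _ _)
  have hβ3 : β ≤ c / (2 * (Λ + 1)) := min_le_right _ _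
  have hbl : Λ * (β + β) ≤ c := by
    rw [le_div_iff₀ (by positivity)] at hβ3
    nlinarith
  have hsub : HS R (θ - π / 2 + β) (θ + π / 2 - β) ⊆ HS R (θ - π / 2) (θ + π / 2) :=
    HS_mono le_rfl (by linarith) (by linarith)
  have h1 := core (H := H) (R := R) (θ := θ) (C := |C|) (ε := |ε|) hβ0 hβ0
    (by linarith [pi_gt_three]) hΛ hbl (abs_nonneg _) (abs_nonneg _)
    (fun w hw => (hC w (hsub hw)).trans
      (mul_le_mul_of_nonneg_right (le_abs_self _) (exp_pos _).le))
    (hA.mono hsub hβ1 fun w _ => mul_le_mul_of_nonneg_right (le_abs_self _) (exp_pos _).le)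
  set B := exp (π ^ 2) * (|C| * exp (Λ * exp (R + β)) + 2 * |ε| / (1 - exp (-(β ^ 2 / 2))))
  refine ⟨max B |C|, (abs_nonneg _).trans (le_max_right _ _), fun w hw => ?_⟩
  by_cases h2 : w ∈ HS R (θ - π / 2 + β) (θ + π / 2 - β)
  · have h3 := h1 w h2
    have h4 : ‖H w‖ = ‖H w‖ * exp (Λ * exp w.re * cos (w.im - θ)) *
        exp (-(Λ * cos (w.im - θ)) * exp w.re) := by
      rw [mul_assoc, ← exp_add]
      ring_nf
      simp
    rw [h4]
    exact mul_le_mul_of_nonneg_right (h3.trans (le_max_left _ _)) (exp_pos _).le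
  · have h3 : π / 2 - β ≤ |w.im - θ| := by
      by_contra h
      push Not at h
      have := abs_lt.1 h
      exact h2 ⟨hw.1, by linarith [this.1], by linarith [this.2]⟩
    have h4 : |w.im - θ| < π / 2 := abs_lt.2 ⟨by linarith [hw.2.1], by linarith [hw.2.2]⟩
    have h5 : cos (w.im - θ) ≤ β := by
      rw [← cos_abs, ← sin_pi_div_two_sub]
      refine (sin_le (by linarith)).trans (by linarith)
    have h6 : Λ * cos (w.im - θ) ≤ c := by nlinarith [mul_le_mul_of_nonneg_left h5 hΛ]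
    refine (hC w hw).trans (mul_le_mul ((le_abs_self _).trans (le_max_right _ _))
      (exp_le_exp.2 ?_) (exp_pos _).le ((abs_nonneg _).trans (le_max_right _ _)))
    exact mul_le_mul_of_nonneg_right (by linarith) (exp_pos _).le

/-- on a closed substrip finitely many (two or more) directions are not needed pointwise: every
height of a substrip has a direction with a uniform cosine -/
theorem exists_dir {a b a' b' : ℝ} (hab : π ≤ b - a) (ha : a < a') (hb : b' < b) :
    ∃ m, 0 < m ∧ ∀ y, a' ≤ y → y ≤ b' → ∃ θ, a ≤ θ - π / 2 ∧ θ + π / 2 ≤ b ∧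
      |y - θ| < π / 2 ∧ m ≤ cos (y - θ) := by
  set ρ := min (min (a' - a) (b - b')) 1 with hρ
  have h0 : 0 < ρ := lt_min (lt_min (by linarith) (by linarith)) one_pos
  have h1 : ρ ≤ a' - a := (min_le_left _ _).trans (min_le_left _ _)
  have h2 : ρ ≤ b - b' := (min_le_left _ _).trans (min_le_right _ _)
  have h3 : ρ ≤ 1 := min_le_right _ _
  have hp := pi_gt_three
  refine ⟨cos (π / 2 - ρ), cos_pos_of_mem_Ioo ⟨by linarith, by linarith⟩, fun y hy1 hy2 => ?_⟩
  have h4 : |y - max (a + π / 2) (min y (b - π / 2))| ≤ π / 2 - ρ := by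
    rw [abs_le]
    constructor
    · have : max (a + π / 2) (min y (b - π / 2)) ≤ y + (π / 2 - ρ) :=
        max_le (by linarith) ((min_le_left _ _).trans (by linarith))
      linarith
    · have : y - (π / 2 - ρ) ≤ max (a + π / 2) (min y (b - π / 2)) :=
        le_max_of_le_right (le_min (by linarith) (by linarith))
      linarith
  refine ⟨max (a + π / 2) (min y (b - π / 2)), by linarith [le_max_left (a + π / 2) (min y (b - π / 2))],
    ?_, by linarith, ?_⟩
  · have : max (a + π / 2) (min y (b - π / 2)) ≤ b - π / 2 := max_le (by linarith) (min_le_right _ _)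
    linarith
  · rw [← cos_abs (y - _)]
    exact cos_le_cos_of_nonneg_of_le_pi (abs_nonneg _) (by linarith) h4

/-- **Relative Watson lemma.**  Opening `≥ π`, flat of some rate `c > 0`, holomorphic up to errors of
every rate: then of every rate on each closed substrip. -/
theorem relW {H : ℂ → E} {R a b η c C : ℝ} (hab : π ≤ b - a) (hη : 0 < η) (hc : 0 < c)
    (hC : ∀ w ∈ HS R a b, ‖H w‖ ≤ C * exp (-c * exp w.re))
    (hA : ∀ L, ∃ ε, Apx (HS R a b) η H fun w => ε * exp (-L * exp w.re))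
    {a' b' : ℝ} (ha : a < a') (hb : b' < b) (L : ℝ) :
    ∃ C', 0 ≤ C' ∧ ∀ w : ℂ, R < w.re → a' ≤ w.im → w.im ≤ b' →
      ‖H w‖ ≤ C' * exp (-L * exp w.re) := by
  obtain ⟨m, hm, hdir⟩ := exists_dir hab ha hb
  set Λ := |L| / m with hΛ
  have hΛ0 : 0 ≤ Λ := by positivity
  obtain ⟨ε, hε⟩ := hA Λ
  set β := min (min η 1) (c / (2 * (Λ + 1))) with hβ
  have hβ0 : 0 < β := lt_min (lt_min hη one_pos) (by positivity)
  have hβ1 : β ≤ η := (min_le_left _ _).trans (min_le_left _ _)
  have hβ2 : β ≤ 1 := (min_le_left _ _).trans (min_le_right _ _)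
  have hβ3 : β ≤ c / (2 * (Λ + 1)) := min_le_right _ _
  have hbl : Λ * (β + β) ≤ c := by
    rw [le_div_iff₀ (by positivity)] at hβ3
    nlinarith
  set B := exp (π ^ 2) * (|C| * exp (Λ * exp (R + β)) + 2 * |ε| / (1 - exp (-(β ^ 2 / 2))))
  refine ⟨max B |C|, (abs_nonneg _).trans (le_max_right _ _), fun w h1 h2 h3 => ?_⟩
  obtain ⟨θ, t1, t2, t3, t4⟩ := hdir w.im h2 h3
  have hL : L ≤ Λ * cos (w.im - θ) := by
    have : Λ * m = |L| := by rw [hΛ]; field_simp
    linarith [le_abs_self L, mul_le_mul_of_nonneg_left t4 hΛ0]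
  have hw : w ∈ HS R a b := ⟨h1, by linarith, by linarith⟩
  have hsub : HS R (θ - π / 2 + β) (θ + π / 2 - β) ⊆ HS R a b :=
    HS_mono le_rfl (by linarith) (by linarith)
  by_cases h4 : w ∈ HS R (θ - π / 2 + β) (θ + π / 2 - β)
  · have h5 := core (H := H) (R := R) (θ := θ) (C := |C|) (ε := |ε|) hβ0 hβ0
      (by linarith [pi_gt_three]) hΛ0 hbl (abs_nonneg _) (abs_nonneg _)
      (fun w hw => (hC w (hsub hw)).trans
        (mul_le_mul_of_nonneg_right (le_abs_self _) (exp_pos _).le))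
      (hε.mono hsub hβ1 fun w _ => mul_le_mul_of_nonneg_right (le_abs_self _) (exp_pos _).le) w h4
    have h6 : ‖H w‖ = ‖H w‖ * exp (L * exp w.re) * exp (-L * exp w.re) := by
      rw [mul_assoc, ← exp_add]
      ring_nf
      simp
    rw [h6]
    refine mul_le_mul_of_nonneg_right (le_trans ?_ (h5.trans (le_max_left _ _))) (exp_pos _).le
    refine mul_le_mul_of_nonneg_left (exp_le_exp.2 ?_) (norm_nonneg _)
    nlinarith [mul_le_mul_of_nonneg_right hL (exp_pos w.re).le]
  · have h5 : π / 2 - β ≤ |w.im - θ| := by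
      by_contra h
      push Not at h
      have := abs_lt.1 h
      exact h4 ⟨h1, by linarith [this.1], by linarith [this.2]⟩
    have h6 : cos (w.im - θ) ≤ β := by
      rw [← cos_abs, ← sin_pi_div_two_sub]
      refine (sin_le (by linarith)).trans (by linarith)
    have h7 : L ≤ c := by nlinarith [mul_le_mul_of_nonneg_left h6 hΛ0]
    refine (hC w hw).trans (mul_le_mul ((le_abs_self _).trans (le_max_right _ _))
      (exp_le_exp.2 ?_) (exp_pos _).le ((abs_nonneg _).trans (le_max_right _ _)))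
    exact mul_le_mul_of_nonneg_right (by linarith) (exp_pos _).le

/-- **Watson's lemma.** -/
theorem watson [CompleteSpace E] {h : ℂ → E} {R a b c C : ℝ} (hab : π ≤ b - a) (hc : 0 < c)
    (hd : DifferentiableOn ℂ h (HS R a b))
    (hC : ∀ w ∈ HS R a b, ‖h w‖ ≤ C * exp (-c * exp w.re)) : EqOn h 0 (HS R a b) := by
  have hp := pi_gt_three
  set θ := (a + b) / 2 with hθ
  have hz : ∀ w ∈ HS (R + 3) (θ - 1) (θ + 1), h w = 0 := by
    intro w hw
    have hy : |w.im - θ| < 1 := abs_lt.2 ⟨by linarith [hw.2.1], by linarith [hw.2.2]⟩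
    have hcos : 1 / 2 ≤ cos (w.im - θ) := by
      have h1 := one_sub_sq_div_two_le_cos (x := w.im - θ)
      have h2 : (w.im - θ) ^ 2 ≤ 1 := by
        rw [← sq_abs]
        nlinarith [abs_nonneg (w.im - θ)]
      linarith
    have hb : ∀ Λ : ℝ, 0 ≤ Λ → ‖h w‖ ≤ exp (π ^ 2) * |C| * exp (-(exp (R + 1) * Λ)) := by
      intro Λ hΛ
      set β := min (1 / 4) (c / (2 * (Λ + 1))) with hβ
      have hβ0 : 0 < β := lt_min (by norm_num) (by positivity)
      have hβ2 : β ≤ 1 / 4 := min_le_left _ _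
      have hβ3 : β ≤ c / (2 * (Λ + 1)) := min_le_right _ _
      have hbl : Λ * (β + β) ≤ c := by
        rw [le_div_iff₀ (by positivity)] at hβ3
        nlinarith
      have hsub : HS R (θ - π / 2 + β) (θ + π / 2 - β) ⊆ HS R a b :=
        HS_mono le_rfl (by linarith) (by linarith)
      have h5 := core (H := h) (R := R) (θ := θ) (C := |C|) (ε := 0) hβ0 hβ0
        (by linarith) hΛ hbl (abs_nonneg _) le_rfl
        (fun w hw => (hC w (hsub hw)).trans
          (mul_le_mul_of_nonneg_right (le_abs_self _) (exp_pos _).le))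
        ((apx_of_differentiableOn hd β).mono hsub le_rfl fun w _ => by simp) w
        ⟨by linarith [hw.1], by linarith [hw.2.1], by linarith [hw.2.2]⟩
      simp only [mul_zero, zero_div, add_zero] at h5
      have h6 : exp (R + β) ≤ exp (R + 1) := exp_le_exp.2 (by linarith)
      have h7 : 4 * exp (R + 1) ≤ exp w.re := by
        have h8 : exp (R + 1) * exp 2 ≤ exp w.re := by
          rw [← exp_add]
          exact exp_le_exp.2 (by linarith [hw.1])
        have h9 : 4 ≤ exp (2 : ℝ) := by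
          have := quadratic_le_exp_of_nonneg (x := (2 : ℝ)) (by norm_num)
          linarith
        nlinarith [exp_pos (R + 1)]
      have h10 : 2 * exp (R + 1) ≤ exp w.re * cos (w.im - θ) := by nlinarith [exp_pos w.re]
      have h11 : ‖h w‖ = ‖h w‖ * exp (Λ * exp w.re * cos (w.im - θ)) *
          exp (-(Λ * exp w.re * cos (w.im - θ))) := by
        rw [mul_assoc, ← exp_add]
        simp
      rw [h11]
      refine (mul_le_mul_of_nonneg_right h5 (exp_pos _).le).trans ?_
      have h12 : exp (Λ * exp (R + β)) * exp (-(Λ * exp w.re * cos (w.im - θ))) ≤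
          exp (-(exp (R + 1) * Λ)) := by
        rw [← exp_add]
        refine exp_le_exp.2 ?_
        nlinarith [mul_le_mul_of_nonneg_left h6 hΛ, mul_le_mul_of_nonneg_left h10 hΛ]
      have h13 := mul_le_mul_of_nonneg_left h12
        (mul_nonneg (exp_pos (π ^ 2)).le (abs_nonneg C))
      nlinarith
    have ht : Tendsto (fun Λ : ℝ => exp (π ^ 2) * |C| * exp (-(exp (R + 1) * Λ))) atTop
        (𝓝 (exp (π ^ 2) * |C| * 0)) :=
      (tendsto_exp_neg_atTop_nhds_zero.comp
        (tendsto_id.const_mul_atTop (exp_pos (R + 1)))).const_mul _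
    rw [mul_zero] at ht
    exact norm_le_zero_iff.1 (ge_of_tendsto ht ((eventually_ge_atTop 0).mono hb))
  have hm : (⟨R + 4, θ⟩ : ℂ) ∈ HS (R + 3) (θ - 1) (θ + 1) :=
    ⟨by simp; norm_num, by simp, by simp⟩
  refine (hd.analyticOnNhd (isOpen_HS R a b)).eqOn_zero_of_preconnected_of_eventuallyEq_zero
    (convex_HS R a b).isPreconnected (z₀ := ⟨R + 4, θ⟩)
    (HS_mono (by linarith) (by linarith) (by linarith) hm) ?_
  filter_upwards [(isOpen_HS _ _ _).mem_nhds hm] with w hw using hz w hw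

end Crest.Agent.N250.W

end
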