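import Crest.Agent.N250.W.CH1

/-!
# Row 250, sector toolbox (helper11): Cauchy–Heine / Ramis–Sibuya (W3)

`h` bounded and holomorphic on a half strip of width `> 2π` (a sector of opening `> 2π` in
`t = e^{-w}`) with flat jump has the asymptotic expansion `∑ cf h n • e^{-n w}`, with explicit
constants (linear in the bound `M` and the jump constants `B n`).
-/

set_option autoImplicit false
open Set Metric Filter Topology Complex
open scoped Real

noncomputable section

namespace Crest.Agent.N250.W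

variable {E : Type*} [NormedAddCommGroup E] [NormedSpace ℂ E]

/-- `n`-th Fourier mean over one period at abscissa `x` -/
def chm (h : ℂ → E) (n : ℕ) (x : ℝ) : E :=
  ((2 * π : ℂ))⁻¹ • chV (fun z => exp (n * z) • h z) x

/-- `n`-th asymptotic coefficient (canonical: limit of the Fourier means) -/
def cf (h : ℂ → E) (n : ℕ) : E := limUnder atTop (chm h n)

/-- partial sum of the series `∑ u n • t^n`, `t = e^{-w}` -/
def psum (u : ℕ → E) (N : ℕ) (w : ℂ) : E := ∑ n ∈ Finset.range N, exp (-(n * w)) • u n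

/-- Cauchy–Heine data: bounded, holomorphic on a half strip of width `2π + 2ε`, flat jump -/
structure CH (h : ℂ → E) (R ε M : ℝ) (B : ℕ → ℝ) : Prop where
  pos : 0 < ε
  diff : DifferentiableOn ℂ h (HS R (-π - ε) (π + ε))
  bdd : ∀ w ∈ HS R (-π - ε) (π + ε), ‖h w‖ ≤ M
  jump : ∀ n : ℕ, ∀ w ∈ HS R (-ε) ε,
    ‖h (w - π * I) - h (w + π * I)‖ ≤ B n * Real.exp (-((n + 1) * w.re))

theorem two_pi_ne : (2 * π : ℂ) ≠ 0 := by simp [Real.pi_ne_zero]

theorem norm_two_pi : ‖(2 * π : ℂ)‖ = 2 * π := by simp [Real.pi_pos.le]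

theorem norm_chV_le {g : ℂ → E} {x C : ℝ} (h : ∀ y ∈ uIcc (-π) π, ‖g (x + y * I)‖ ≤ C) :
    ‖chV g x‖ ≤ C * (2 * π) := by
  have := intervalIntegral.norm_integral_le_of_norm_le_const (a := -π) (b := π)
    (f := fun y : ℝ => g (x + y * I)) fun y hy => h y (uIoc_subset_uIcc hy)
  rwa [sub_neg_eq_add, ← two_mul, abs_of_pos Real.two_pi_pos] at this

theorem norm_chH_le {g : ℂ → E} {x₀ x₁ C : ℝ} (hx : x₀ ≤ x₁)
    (h : ∀ x : ℝ, x₀ ≤ x → x ≤ x₁ → ‖g (x - π * I) - g (x + π * I)‖ ≤ C * Real.exp (-x)) :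
    ‖chH g x₀ x₁‖ ≤ C * Real.exp (-x₀) := by
  have hC : 0 ≤ C := by
    have := (norm_nonneg _).trans (h x₀ le_rfl hx)
    exact nonneg_of_mul_nonneg_left this (Real.exp_pos _)
  refine (intervalIntegral.norm_integral_le_of_norm_le hx
    (Eventually.of_forall fun x hx => h x hx.1.le hx.2)
    (Continuous.intervalIntegrable (by fun_prop) _ _)).trans ?_
  rw [intervalIntegral.integral_const_mul, intervalIntegral.integral_comp_neg fun x => Real.exp x,
    integral_exp]
  exact mul_le_mul_of_nonneg_left (by linarith [Real.exp_pos (-x₁)]) hC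

omit [NormedSpace ℂ E] in
theorem exp_jump {n : ℕ} {x B : ℝ} {a : E} (h : ‖a‖ ≤ B * Real.exp (-((n + 1) * x))) :
    Real.exp (n * x) * ‖a‖ ≤ B * Real.exp (-x) := by
  refine (mul_le_mul_of_nonneg_left h (Real.exp_pos _).le).trans (le_of_eq ?_)
  rw [mul_left_comm, ← Real.exp_add]
  congr 2
  ring

/-- the Fourier means are Cauchy -/
theorem chm_sub_le {g : ℂ → E} {x₀ x₁ B : ℝ} {n : ℕ} (hx : x₀ ≤ x₁)
    (hd : ∀ z ∈ chR x₀ x₁, DifferentiableAt ℂ g z)
    (hB : ∀ x : ℝ, x₀ ≤ x → x ≤ x₁ →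
      ‖g (x - π * I) - g (x + π * I)‖ ≤ B * Real.exp (-((n + 1) * x))) :
    ‖chm g n x₀ - chm g n x₁‖ ≤ B * Real.exp (-x₀) := by
  have hd' : ∀ z ∈ chR x₀ x₁, DifferentiableAt ℂ (fun z => exp (n * z) • g z) z :=
    fun z hz => (by fun_prop : DifferentiableAt ℂ (fun z : ℂ => exp (n * z)) z).smul (hd z hz)
  have key := rect0 hx countable_empty
    (fun z hz => (hd' z hz).continuousAt.continuousWithinAt) fun z hz _ => hd' z hz
  have hH : ‖chH (fun z => exp (n * z) • g z) x₀ x₁‖ ≤ B * Real.exp (-x₀) := by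
    refine norm_chH_le hx fun x h0 h1 => ?_
    rw [exp_nat_per, ← smul_sub, norm_smul, norm_exp]
    simpa using exp_jump (hB x h0 h1)
  have e : chH (fun z => exp (n * z) • g z) x₀ x₁ = I • (chV (fun z => exp (n * z) • g z) x₀ -
      chV (fun z => exp (n * z) • g z) x₁) := by
    rw [← sub_eq_zero, ← key, smul_sub]
    abel
  rw [e, norm_smul, norm_I, one_mul] at hH
  unfold chm
  rw [← smul_sub, norm_smul, norm_inv, norm_two_pi]
  have h1 : (2 * π)⁻¹ ≤ 1 := inv_le_one_of_one_le₀ (by linarith [Real.pi_gt_three])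
  exact (mul_le_of_le_one_left (norm_nonneg _) h1).trans hH

/-- the basic estimate, finite rectangle -/
theorem ch_est [CompleteSpace E] {g : ℂ → E} {x₀ X M B δ : ℝ} {N : ℕ} {w : ℂ} (hδ : 0 < δ)
    (hδ' : δ ≤ π / 2) (h0 : x₀ + 1 ≤ w.re) (h1 : w.re < X) (h2 : |w.im| ≤ π - δ)
    (hd : ∀ z ∈ chR x₀ X, DifferentiableAt ℂ g z) (hM : ∀ z ∈ chR x₀ X, ‖g z‖ ≤ M)
    (hB : ∀ x : ℝ, x₀ ≤ x → x ≤ X →
      ‖g (x - π * I) - g (x + π * I)‖ ≤ B * Real.exp (-((N + 1) * x))) :
    ‖g w - psum (fun n => chm g n X) N w‖ ≤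
      (2 * M * Real.exp (N * x₀) + B * Real.exp (-x₀) / Real.sin δ) * Real.exp (-(N * w.re)) +
        M / (X - w.re) := by
  have hx : x₀ ≤ X := by linarith
  have hgc : ContinuousOn g (chR x₀ X) := fun z hz => (hd z hz).continuousAt.continuousWithinAt
  have key := rect1 (g := fun z => exp (N * (z - w)) • g z) (x₀ := x₀) (x₁ := X) (w := w)
    (by linarith) h1 (by linarith) fun z hz =>
      (by fun_prop : DifferentiableAt ℂ (fun z : ℂ => exp (N * (z - w))) z).smul (hd z hz)
  simp only [sub_self, mul_zero, exp_zero, one_smul] at key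
  -- right edge
  have hR : chV (fun z => chK (z - w) • exp (N * (z - w)) • g z) X =
      chV (fun z => chK (z - w) • g z) X + (2 * π : ℂ) • psum (fun n => chm g n X) N w := by
    have hi : ∀ n : ℕ, IntervalIntegrable (fun y : ℝ => exp (n * (X + y * I)) • g (X + y * I))
        MeasureTheory.volume (-π) π := fun n =>
      intervalIntegrable_vert (g := fun z => exp (n * z) • g z)
        ((by fun_prop : ContinuousOn (fun z : ℂ => exp (n * z)) _).smul hgc) hx le_rfl
    have e : (2 * π : ℂ) • psum (fun n => chm g n X) N w = ∫ y in (-π)..π,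
        ∑ n ∈ Finset.range N, exp (-(n * w)) • exp (n * (X + y * I)) • g (X + y * I) := by
      rw [intervalIntegral.integral_finsetSum
        (f := fun (n : ℕ) (y : ℝ) => exp (-(n * w)) • exp (n * (X + y * I)) • g (X + y * I))
        fun n _ => (hi n).smul (exp (-(n * w)))]
      simp only [psum, chm, chV, Finset.smul_sum, intervalIntegral.integral_smul]
      refine Finset.sum_congr rfl fun n _ => ?_
      rw [smul_comm, smul_inv_smul₀ two_pi_ne]
    rw [e]
    unfold chV
    rw [← intervalIntegral.integral_add]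
    · refine intervalIntegral.integral_congr fun y _ => ?_
      have h3 : exp (X + y * I - w) ≠ 1 := exp_ne_one_of_re (by simpa [sub_eq_zero] using h1.ne')
      simp only [smul_smul]
      rw [mul_comm, chK_expand h3, add_smul, Finset.sum_smul]
      congr 1
      refine Finset.sum_congr rfl fun n _ => ?_
      rw [← exp_add]
      congr 2
      ring
    · exact ((continuous_chK_vert h1.ne').continuousOn.smul
        (hgc.comp (by fun_prop) fun _ hy => vert_mem_chR hx le_rfl hy)).intervalIntegrable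
    · refine ContinuousOn.intervalIntegrable (continuousOn_finsetSum _ fun n _ => ?_)
      exact ContinuousOn.const_smul ((by fun_prop : ContinuousOn
        (fun y : ℝ => exp (n * (X + y * I))) _).smul
        (hgc.comp (by fun_prop) fun _ hy => vert_mem_chR hx le_rfl hy)) _
  have hs : 0 < Real.sin δ := Real.sin_pos_of_pos_of_lt_pi hδ (by linarith [Real.pi_pos])
  have hM0 : 0 ≤ M := (norm_nonneg _).trans (hM _ (bot_mem_chR le_rfl hx))
  have b1 : ‖chV (fun z => chK (z - w) • g z) X‖ ≤ M / (X - w.re) * (2 * π) := by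
    refine norm_chV_le fun y hy => ?_
    rw [norm_smul, div_eq_inv_mul]
    refine mul_le_mul ?_ (hM _ (vert_mem_chR hx le_rfl hy)) (norm_nonneg _)
      (inv_nonneg.2 (by linarith))
    simpa using norm_chK_le_right (z := X + y * I - w) (by simpa using h1)
  have b2 : ‖chV (fun z => chK (z - w) • exp (N * (z - w)) • g z) x₀‖ ≤
      2 * M * Real.exp (N * x₀) * Real.exp (-(N * w.re)) * (2 * π) := by
    refine norm_chV_le fun y hy => ?_
    rw [norm_smul, norm_smul, norm_exp]
    have e1 : (N * (x₀ + y * I - w) : ℂ).re = N * x₀ + -(N * w.re) := by simp; ring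
    rw [e1, Real.exp_add]
    have k1 := norm_chK_le_left (z := x₀ + y * I - w) (by simp; linarith)
    have k2 := hM _ (vert_mem_chR le_rfl hx hy)
    calc _ ≤ 2 * (Real.exp (N * x₀) * Real.exp (-(N * w.re)) * M) := by gcongr
      _ = _ := by ring
  have b3 : ‖chH (fun z => chK (z - w) • exp (N * (z - w)) • g z) x₀ X‖ ≤
      (B / Real.sin δ * Real.exp (-(N * w.re))) * Real.exp (-x₀) := by
    refine norm_chH_le hx fun x hx0 hx1 => ?_
    have e3 : chK (x - π * I - w) = chK (x + π * I - w) := by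
      convert chK_per (x - w) using 2 <;> ring
    have e4 : exp (N * (x - π * I - w)) = exp (N * (x + π * I - w)) := by
      convert exp_nat_per N (x - w) using 3 <;> ring
    rw [e3, e4, ← smul_sub, ← smul_sub, norm_smul, norm_smul, norm_exp]
    have e1 : (N * (x + π * I - w) : ℂ).re = -(N * w.re) + N * x := by simp; ring
    obtain ⟨h2a, h2b⟩ := abs_le.1 h2
    have e2 : (x + π * I - w : ℂ).im = π - w.im := by simp
    have k1 := norm_chK_le_of_im (z := x + π * I - w) hδ hδ'
      (by rw [e2, abs_of_nonneg (by linarith)]; linarith)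
      (by rw [e2, abs_of_nonneg (by linarith)]; linarith)
    have k2 := exp_jump (hB x hx0 hx1)
    rw [e1, Real.exp_add, mul_assoc]
    calc _ ≤ (Real.sin δ)⁻¹ * (Real.exp (-(N * w.re)) * (B * Real.exp (-x))) := by gcongr
      _ = _ := by ring
  have e : (2 * π * I : ℂ) • (g w - psum (fun n => chm g n X) N w) =
      chH (fun z => chK (z - w) • exp (N * (z - w)) • g z) x₀ X +
        I • chV (fun z => chK (z - w) • g z) X -
        I • chV (fun z => chK (z - w) • exp (N * (z - w)) • g z) x₀ := by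
    rw [smul_sub, ← key, hR, smul_add, smul_smul, mul_comm I]
    abel
  have hn := congrArg norm e
  rw [norm_smul, norm_mul, norm_two_pi, norm_I, mul_one] at hn
  have h4 := (norm_sub_le _ _).trans (add_le_add (norm_add_le _ _) le_rfl) |>.trans_eq' hn.symm
  rw [norm_smul, norm_smul, norm_I, one_mul, one_mul] at h4
  have hb : 0 ≤ B / Real.sin δ * Real.exp (-(N * w.re)) * Real.exp (-x₀) :=
    (norm_nonneg _).trans b3
  have hπ : 1 ≤ 2 * π := by linarith [Real.pi_gt_three]
  refine le_of_mul_le_mul_left ?_ Real.two_pi_pos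
  have h5 : B / Real.sin δ * Real.exp (-(N * w.re)) * Real.exp (-x₀) ≤
      2 * π * (B / Real.sin δ * Real.exp (-(N * w.re)) * Real.exp (-x₀)) :=
    le_mul_of_one_le_left hb hπ
  calc _ ≤ 2 * π * (B / Real.sin δ * Real.exp (-(N * w.re)) * Real.exp (-x₀)) +
        M / (X - w.re) * (2 * π) + 2 * M * Real.exp (N * x₀) * Real.exp (-(N * w.re)) * (2 * π) := by
        linarith
    _ = _ := by ring

theorem mem_HS_of_chR {R ε θ x₀ x₁ : ℝ} (hR : R < x₀) (hθ : |θ| < ε) {z : ℂ} (hz : z ∈ chR x₀ x₁) :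
    z + θ * I ∈ HS R (-π - ε) (π + ε) := by
  obtain ⟨h1, h2⟩ := abs_lt.1 hθ
  obtain ⟨a, -, b, c⟩ := hz
  refine ⟨by simpa using hR.trans_le a, ?_, ?_⟩ <;> simp <;> linarith

namespace CH

variable {h : ℂ → E} {R ε M : ℝ} {B : ℕ → ℝ}

theorem dAt (H : CH h R ε M B) {z : ℂ} (hz : z ∈ HS R (-π - ε) (π + ε)) :
    DifferentiableAt ℂ h z := H.diff.differentiableAt ((isOpen_HS _ _ _).mem_nhds hz)

theorem jump' (H : CH h R ε M B) (n : ℕ) {x θ : ℝ} (hx : R < x) (hθ : |θ| < ε) :
    ‖h (x - π * I + θ * I) - h (x + π * I + θ * I)‖ ≤ B n * Real.exp (-((n + 1) * x)) := by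
  obtain ⟨h1, h2⟩ := abs_lt.1 hθ
  have := H.jump n (x + θ * I) ⟨by simpa using hx, by simpa using h1, by simpa using h2⟩
  convert this using 4
  · ring
  · ring
  · simp

theorem B_nonneg (H : CH h R ε M B) (n : ℕ) : 0 ≤ B n :=
  nonneg_of_mul_nonneg_left ((norm_nonneg _).trans
    (H.jump' n (θ := 0) (lt_add_one R) (by simpa using H.pos))) (Real.exp_pos _)

theorem M_nonneg (H : CH h R ε M B) : 0 ≤ M :=
  (norm_nonneg _).trans (H.bdd _ (mem_HS_of_chR (θ := 0) (lt_add_one R) (by simpa using H.pos)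
    (bot_mem_chR le_rfl le_rfl)))

theorem chm_sub (H : CH h R ε M B) (n : ℕ) {x₀ x₁ : ℝ} (hR : R < x₀) (hx : x₀ ≤ x₁) :
    ‖chm h n x₀ - chm h n x₁‖ ≤ B n * Real.exp (-x₀) := by
  have h0 : |(0 : ℝ)| < ε := by simpa using H.pos
  refine chm_sub_le hx (fun z hz => H.dAt (by simpa using mem_HS_of_chR hR h0 hz))
    fun x hx0 _ => by simpa using H.jump' n (hR.trans_le hx0) h0

theorem tendsto_B (b : ℝ) : Tendsto (fun x : ℝ => b * Real.exp (-x)) atTop (𝓝 0) := by
  simpa using Real.tendsto_exp_neg_atTop_nhds_zero.const_mul b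

/-- the Fourier means converge to the coefficient -/
theorem tendsto [CompleteSpace E] (H : CH h R ε M B) (n : ℕ) :
    Tendsto (chm h n) atTop (𝓝 (cf h n)) := by
  refine tendsto_nhds_limUnder (cauchySeq_tendsto_of_complete ?_)
  rw [Metric.cauchySeq_iff']
  intro η hη
  obtain ⟨x, hx1, hx2⟩ :=
    (((tendsto_B (B n)).eventually (gt_mem_nhds hη)).and (eventually_gt_atTop R)).exists
  refine ⟨x, fun y hy => ?_⟩
  rw [dist_comm, dist_eq_norm]
  exact (H.chm_sub n hx2 hy).trans_lt hx1

theorem rate [CompleteSpace E] (H : CH h R ε M B) (n : ℕ) {x : ℝ} (hx : R < x) :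
    ‖chm h n x - cf h n‖ ≤ B n * Real.exp (-x) :=
  le_of_tendsto ((tendsto_const_nhds.sub (H.tendsto n)).norm)
    ((eventually_ge_atTop x).mono fun _ hy => H.chm_sub n hx hy)

theorem chm_le (H : CH h R ε M B) (n : ℕ) {x : ℝ} (hx : R < x) :
    ‖chm h n x‖ ≤ M * Real.exp (n * x) := by
  have h0 : |(0 : ℝ)| < ε := by simpa using H.pos
  have : ‖chV (fun z => exp (n * z) • h z) x‖ ≤ M * Real.exp (n * x) * (2 * π) := by
    refine norm_chV_le fun y hy => ?_
    rw [norm_smul, norm_exp, mul_comm]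
    have := H.bdd _ (mem_HS_of_chR hx h0 (vert_mem_chR le_rfl le_rfl hy))
    simp only [ofReal_zero, zero_mul, add_zero] at this
    refine mul_le_mul this (le_of_eq ?_) (Real.exp_pos _).le H.M_nonneg
    simp
  unfold chm
  rw [norm_smul, norm_inv, norm_two_pi, inv_mul_le_iff₀ Real.two_pi_pos, mul_comm]
  exact this

/-- bound of the coefficients -/
theorem cf_le [CompleteSpace E] (H : CH h R ε M B) (n : ℕ) {x : ℝ} (hx : R < x) :
    ‖cf h n‖ ≤ M * Real.exp (n * x) + B n * Real.exp (-x) := by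
  have := norm_sub_le (chm h n x) (chm h n x - cf h n)
  rw [sub_sub_cancel] at this
  linarith [H.rate n hx, H.chm_le n hx]

/-- moving the cut does not change the limit of the means -/
theorem shift (H : CH h R ε M B) (n : ℕ) {θ x : ℝ} (hθ : |θ| < ε) (hx : R < x) :
    ‖exp (n * (θ * I)) • chm (fun z => h (z + θ * I)) n x - chm h n x‖ ≤
      B n * ε * Real.exp (-x) := by
  set φ : ℝ → E := fun y => exp (n * (x + y * I)) • h (x + y * I) with hφ
  obtain ⟨h1, h2⟩ := abs_lt.1 hθ
  have hc : ContinuousOn φ (Ioo (-π - ε) (π + ε)) := fun y hy => by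
    refine ContinuousAt.continuousWithinAt (ContinuousAt.smul (by fun_prop) ?_)
    exact ContinuousAt.comp (f := fun y : ℝ => (x : ℂ) + y * I)
      (H.dAt ⟨by simpa using hx, by simpa using hy.1, by simpa using hy.2⟩).continuousAt
      (by fun_prop)
  have hπ := Real.pi_pos
  have hε := H.pos
  have hi : ∀ a b, a ∈ Ioo (-π - ε) (π + ε) → b ∈ Ioo (-π - ε) (π + ε) →
      IntervalIntegrable φ MeasureTheory.volume a b := fun a b ha hb =>
    (hc.mono (ordConnected_Ioo.uIcc_subset ha hb)).intervalIntegrable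
  have e1 : exp (n * (θ * I)) • chV (fun z => exp (n * z) • h (z + θ * I)) x =
      ∫ y in (θ + -π)..(θ + π), φ y := by
    unfold chV
    rw [← intervalIntegral.integral_smul, ← intervalIntegral.integral_comp_add_left φ θ]
    refine intervalIntegral.integral_congr fun y _ => ?_
    simp only [hφ, smul_smul, ← exp_add]
    congr 2 <;> push_cast <;> ring
  have e2 : (∫ y in (θ + -π)..(θ + π), φ y) - ∫ y in (-π)..π, φ y =
      ∫ y in (0 : ℝ)..θ, (φ (y + π) - φ (y + -π)) := by
    rw [intervalIntegral.integral_interval_sub_interval_comm'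
      (hi _ _ ⟨by linarith, by linarith⟩ ⟨by linarith, by linarith⟩)
      (hi _ _ ⟨by linarith, by linarith⟩ ⟨by linarith, by linarith⟩)
      (hi _ _ ⟨by linarith, by linarith⟩ ⟨by linarith, by linarith⟩),
      intervalIntegral.integral_sub, intervalIntegral.integral_comp_add_right φ,
      intervalIntegral.integral_comp_add_right φ, zero_add, zero_add]
    · simpa using (hi (0 + π) (θ + π) ⟨by linarith, by linarith⟩
        ⟨by linarith, by linarith⟩).comp_add_right π
    · simpa using (hi (0 + -π) (θ + -π) ⟨by linarith, by linarith⟩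
        ⟨by linarith, by linarith⟩).comp_add_right (-π)
  have e3 : ‖∫ y in (0 : ℝ)..θ, (φ (y + π) - φ (y + -π))‖ ≤ B n * Real.exp (-x) * |θ - 0| := by
    refine intervalIntegral.norm_integral_le_of_norm_le_const fun y hy => ?_
    have hy' : |y| < ε := by
      rcases mem_uIoc.1 hy with hy | hy <;> rw [abs_lt] <;> constructor <;> linarith [hy.1, hy.2]
    have a1 : (x : ℂ) + ((y + π : ℝ) : ℂ) * I = x + π * I + y * I := by push_cast; ring
    have a2 : (x : ℂ) + ((y + -π : ℝ) : ℂ) * I = x - π * I + y * I := by push_cast; ring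
    have a3 : exp (n * (x - π * I + y * I)) = exp (n * (x + π * I + y * I)) := by
      convert exp_nat_per n (x + y * I) using 3 <;> ring
    simp only [hφ, a1, a2, a3]
    rw [← smul_sub, norm_smul, norm_exp, norm_sub_rev]
    simpa using exp_jump (H.jump' n hx hy')
  unfold chm
  rw [smul_comm, e1, ← smul_sub, norm_smul, norm_inv, norm_two_pi]
  have h3 : (2 * π)⁻¹ ≤ 1 := inv_le_one_of_one_le₀ (by linarith [Real.pi_gt_three])
  refine (mul_le_of_le_one_left (norm_nonneg _) h3).trans ?_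
  refine (le_of_eq (congrArg norm e2)).trans (e3.trans ?_)
  rw [sub_zero, mul_right_comm]
  have := H.B_nonneg n
  gcongr

/-- **Cauchy–Heine**: the asymptotic expansion with explicit constants, on every substrip -/
theorem asy [CompleteSpace E] (H : CH h R ε M B) {δ x₀ : ℝ} (hδ : 0 < δ) (hδ' : δ ≤ π / 2)
    (hR : R < x₀) (N : ℕ) {w : ℂ} (h0 : x₀ + 1 ≤ w.re) (hw : |w.im| < π + ε - δ) :
    ‖h w - psum (cf h) N w‖ ≤
      (2 * M * Real.exp (N * x₀) + B N * Real.exp (-x₀) / Real.sin δ) * Real.exp (-(N * w.re)) := by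
  have hπ := Real.pi_pos
  obtain ⟨θ, hθ, hθ'⟩ : ∃ θ : ℝ, |θ| < ε ∧ |w.im - θ| ≤ π - δ := by
    obtain ⟨h1, h2⟩ := abs_lt.1 hw
    have := H.pos
    rcases le_total w.im (-(π - δ)) with a | a
    · exact ⟨w.im + (π - δ), abs_lt.2 ⟨by linarith, by linarith⟩,
        abs_le.2 ⟨by linarith, by linarith⟩⟩
    rcases le_total w.im (π - δ) with b | b
    · exact ⟨0, by simpa, abs_le.2 ⟨by linarith, by linarith⟩⟩
    · exact ⟨w.im - (π - δ), abs_lt.2 ⟨by linarith, by linarith⟩,
        abs_le.2 ⟨by linarith, by linarith⟩⟩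
  have t1 : ∀ n : ℕ, Tendsto (fun x => exp (n * (θ * I)) • chm (fun z => h (z + θ * I)) n x)
      atTop (𝓝 (cf h n)) := fun n => by
    have := (squeeze_zero_norm' ((eventually_gt_atTop R).mono fun x hx => H.shift n hθ hx)
      (tendsto_B (B n * ε))).add (H.tendsto n)
    simpa using this
  have t2 : Tendsto (fun x => psum (fun n => chm (fun z => h (z + θ * I)) n x) N (w - θ * I))
      atTop (𝓝 (psum (cf h) N w)) := by
    refine tendsto_finsetSum _ fun n _ => ((t1 n).const_smul (exp (-(n * w)))).congr fun x => ?_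
    rw [smul_smul, ← exp_add]
    congr 2
    ring
  have t3 : Tendsto (fun x : ℝ => M / (x - w.re)) atTop (𝓝 0) :=
    tendsto_const_nhds.div_atTop (tendsto_atTop_add_const_right _ _ tendsto_id)
  have t4 := ((tendsto_const_nhds (x := h w)).sub t2).norm.sub t3
  rw [sub_zero] at t4
  refine le_of_tendsto t4 ((eventually_gt_atTop w.re).mono fun X hX => ?_)
  have := ch_est (g := fun z => h (z + θ * I)) (x₀ := x₀) (X := X) (M := M) (B := B N) (N := N)
    (w := w - θ * I) hδ hδ' (by simpa using h0) (by simpa using hX) (by simpa using hθ')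
    (fun z hz => (H.dAt (mem_HS_of_chR hR hθ hz)).comp z (f := fun z => z + θ * I) (by fun_prop))
    (fun z hz => H.bdd _ (mem_HS_of_chR hR hθ hz)) fun x hx _ => H.jump' N (hR.trans_le hx) hθ
  simp only [sub_add_cancel, sub_re, mul_re, ofReal_re, I_re, mul_zero, ofReal_im, I_im, mul_one,
    sub_self, sub_zero] at this
  linarith

end CH

end Crest.Agent.N250.W

end
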