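import Crest.Agent.N250.W.Max

/-!
# Row 250, sector toolbox (helper11): Cauchy formula with the periodic kernel `1/(e^z-1)`
-/

set_option autoImplicit false
open Set Metric Filter Topology Complex
open scoped Real

noncomputable section

namespace Crest.Agent.N250.W

variable {E : Type*} [NormedAddCommGroup E] [NormedSpace ℂ E]

/-- the periodic Cauchy kernel -/
def chK (z : ℂ) : ℂ := (exp z - 1)⁻¹

/-- vertical integral over one period -/
def chV (g : ℂ → E) (x : ℝ) : E := ∫ y in (-π)..π, g (x + y * I)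

/-- horizontal integral of the jump -/
def chH (g : ℂ → E) (x₀ x₁ : ℝ) : E := ∫ x in x₀..x₁, (g (x - π * I) - g (x + π * I))

/-- closed rectangle of height one period -/
def chR (x₀ x₁ : ℝ) : Set ℂ := {z | x₀ ≤ z.re ∧ z.re ≤ x₁ ∧ -π ≤ z.im ∧ z.im ≤ π}

theorem chK_per (z : ℂ) : chK (z - π * I) = chK (z + π * I) := by
  unfold chK
  rw [exp_sub, exp_add, exp_pi_mul_I]
  congr 2
  ring

theorem exp_nat_per (n : ℕ) (z : ℂ) : exp (n * (z - π * I)) = exp (n * (z + π * I)) := by
  rw [exp_nat_mul, exp_nat_mul, exp_sub, exp_add, exp_pi_mul_I]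
  congr 1
  ring

theorem chK_expand {z : ℂ} (hz : exp z ≠ 1) (N : ℕ) :
    exp (N * z) * chK z = chK z + ∑ n ∈ Finset.range N, exp (n * z) := by
  unfold chK
  have h1 : exp z - 1 ≠ 0 := sub_ne_zero.2 hz
  simp only [exp_nat_mul]
  have := geom_sum_mul (exp z) N
  field_simp
  rw [mul_comm (exp z - 1), this]
  ring

theorem exp_ne_one_of_re {z : ℂ} (hz : z.re ≠ 0) : exp z ≠ 1 := by
  intro h
  have := norm_exp z
  rw [h, norm_one] at this
  exact hz (Real.exp_eq_one_iff _ |>.1 this.symm)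

theorem exp_ne_one_of_im {z : ℂ} (hz : z ≠ 0) (h2 : |z.im| < 2 * π) : exp z ≠ 1 := by
  intro h
  obtain ⟨n, hn⟩ := exp_eq_one_iff.1 h
  have him : z.im = n * (2 * π) := by rw [hn]; simp
  rw [him, abs_mul, abs_of_pos Real.two_pi_pos] at h2
  have h3 : |(n : ℝ)| < 1 := by nlinarith [Real.two_pi_pos]
  have h4 : n = 0 := by
    have : |n| < 1 := by exact_mod_cast h3
    exact Int.abs_lt_one_iff.1 this
  exact hz (by rw [hn, h4]; simp)

theorem norm_chK_le_of_im {z : ℂ} {δ : ℝ} (hδ : 0 < δ) (hδ' : δ ≤ π / 2) (h1 : δ ≤ |z.im|)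
    (h2 : |z.im| ≤ 2 * π - δ) : ‖chK z‖ ≤ (Real.sin δ)⁻¹ := by
  have hs : 0 < Real.sin δ := Real.sin_pos_of_pos_of_lt_pi hδ (by linarith [Real.pi_pos])
  have hc : Real.cos z.im ≤ Real.cos δ := by
    rw [← Real.cos_abs z.im]
    rcases le_total |z.im| π with h | h
    · exact Real.cos_le_cos_of_nonneg_of_le_pi hδ.le h h1
    · rw [← Real.cos_two_pi_sub]
      exact Real.cos_le_cos_of_nonneg_of_le_pi hδ.le (by linarith) (by linarith)
  have h3 : Real.sin δ ≤ ‖exp z - 1‖ := by
    refine abs_le_of_sq_le_sq' ?_ (norm_nonneg _) |>.2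
    rw [Complex.sq_norm, Complex.normSq_apply]
    simp only [sub_re, sub_im, exp_re, exp_im, one_re, one_im, sub_zero]
    have e1 := Real.sin_sq_add_cos_sq z.im
    have e2 := Real.sin_sq_add_cos_sq δ
    have e3 := Real.exp_pos z.re
    have e4 : (Real.exp z.re * Real.cos z.im - 1) * (Real.exp z.re * Real.cos z.im - 1) +
        Real.exp z.re * Real.sin z.im * (Real.exp z.re * Real.sin z.im) =
        Real.exp z.re ^ 2 * (Real.sin z.im ^ 2 + Real.cos z.im ^ 2) -
          2 * (Real.exp z.re * Real.cos z.im) + 1 := by ring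
    rw [e4, e1]
    nlinarith [sq_nonneg (Real.exp z.re - Real.cos δ), mul_le_mul_of_nonneg_left hc e3.le]
  unfold chK
  rw [norm_inv]
  exact inv_anti₀ hs h3

theorem norm_chK_le_left {z : ℂ} (hz : z.re ≤ -1) : ‖chK z‖ ≤ 2 := by
  have h1 : Real.exp z.re ≤ 1 / 2 := by
    refine (Real.exp_le_exp.2 hz).trans ?_
    rw [Real.exp_neg, one_div]
    exact inv_anti₀ two_pos (by linarith [Real.add_one_le_exp (1 : ℝ)])
  have h2 : 1 / 2 ≤ ‖exp z - 1‖ := by
    have := norm_sub_norm_le (1 : ℂ) (exp z)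
    rw [norm_one, norm_exp, norm_sub_rev] at this
    linarith
  unfold chK
  rw [norm_inv]
  calc ‖exp z - 1‖⁻¹ ≤ (1 / 2)⁻¹ := inv_anti₀ (by norm_num) h2
    _ = 2 := by norm_num

theorem norm_chK_le_right {z : ℂ} (hz : 0 < z.re) : ‖chK z‖ ≤ (z.re)⁻¹ := by
  have h2 : z.re ≤ ‖exp z - 1‖ := by
    have := norm_sub_norm_le (exp z) (1 : ℂ)
    rw [norm_one, norm_exp] at this
    linarith [Real.add_one_le_exp z.re]
  unfold chK
  rw [norm_inv]
  exact inv_anti₀ hz h2

theorem differentiableAt_chK {z : ℂ} (hz : exp z ≠ 1) : DifferentiableAt ℂ chK z :=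
  (differentiableAt_exp.sub_const 1).inv (sub_ne_zero.2 hz)

theorem continuous_chK_vert {x : ℝ} {w : ℂ} (h : x ≠ w.re) :
    Continuous fun y : ℝ => chK (x + y * I - w) := by
  refine continuous_iff_continuousAt.2 fun y => ?_
  refine ContinuousAt.comp (f := fun y : ℝ => (x : ℂ) + y * I - w)
    (differentiableAt_chK (exp_ne_one_of_re ?_)).continuousAt (by fun_prop)
  simpa [sub_eq_zero] using h

/-- `∫ e^{σ z}/(1 - e^{σ z})` over a period vanishes when `|e^{σ z}| < 1` -/
theorem chV_log {σ : ℂ} (hσ : σ = 1 ∨ σ = -1) {x : ℝ} {w : ℂ} (h : σ.re * (x - w.re) < 0) :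
    ∫ y in (-π)..π, exp (σ * (x + y * I - w)) / (1 - exp (σ * (x + y * I - w))) = 0 := by
  have hn : ∀ y : ℝ, ‖exp (σ * (x + y * I - w))‖ < 1 := fun y => by
    rw [norm_exp, Real.exp_lt_one_iff]
    rcases hσ with rfl | rfl <;> simpa using h
  have hsl : ∀ y : ℝ, 1 - exp (σ * (x + y * I - w)) ∈ slitPlane := fun y => by
    have := mem_slitPlane_of_norm_lt_one (z := -exp (σ * (x + y * I - w))) (by simpa using hn y)
    simpa [sub_eq_add_neg] using this
  have hσ0 : σ ≠ 0 := by rcases hσ with rfl | rfl <;> norm_num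
  have hd : ∀ y : ℝ, HasDerivAt (fun y : ℝ => (I / σ) * log (1 - exp (σ * (x + y * I - w))))
      (exp (σ * (x + y * I - w)) / (1 - exp (σ * (x + y * I - w)))) y := fun y => by
    have h1 : HasDerivAt (fun z : ℂ => (I / σ) * log (1 - exp (σ * (x + z * I - w))))
        ((I / σ) * ((-(exp (σ * (x + y * I - w)) * (σ * (1 * I)))) /
          (1 - exp (σ * (x + y * I - w))))) y := by
      refine HasDerivAt.const_mul _ (HasDerivAt.clog ?_ (hsl y))
      exact ((((hasDerivAt_id (y : ℂ)).mul_const I).const_add (x : ℂ)).sub_const w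
        |>.const_mul σ |>.cexp).const_sub 1
    convert h1.comp_ofReal using 1
    have : (1 - exp (σ * (x + y * I - w))) ≠ 0 := slitPlane_ne_zero (hsl y)
    field_simp
    simp
  rw [intervalIntegral.integral_eq_sub_of_hasDerivAt (fun y _ => hd y)]
  · have : exp (σ * (x + (π : ℝ) * I - w)) = exp (σ * (x + ((-π : ℝ) : ℂ) * I - w)) := by
      have e1 := exp_nat_per 1 (x - w)
      have e2 := exp_nat_per 1 (-(x - w))
      rcases hσ with rfl | rfl
      · convert e1.symm using 2 <;> push_cast <;> ring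
      · convert e2 using 2 <;> push_cast <;> ring
    rw [this, sub_self]
  · refine Continuous.intervalIntegrable ?_ _ _
    exact Continuous.div (by fun_prop) (by fun_prop) fun y => slitPlane_ne_zero (hsl y)

theorem chV_chK_right {x : ℝ} {w : ℂ} (h : w.re < x) :
    ∫ y in (-π)..π, chK (x + y * I - w) = 0 := by
  rw [← chV_log (σ := -1) (Or.inr rfl) (x := x) (w := w) (by simpa using h)]
  refine intervalIntegral.integral_congr fun y _ => ?_
  have h1 : exp (x + y * I - w) ≠ 1 := exp_ne_one_of_re (by simpa [sub_eq_zero] using h.ne')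
  have h2 := exp_ne_zero (x + y * I - w)
  have h3 := sub_ne_zero.2 h1
  simp only [chK, neg_mul, one_mul, exp_neg]
  field_simp

theorem chV_chK_left {x : ℝ} {w : ℂ} (h : x < w.re) :
    ∫ y in (-π)..π, chK (x + y * I - w) = -(2 * π) := by
  have h0 := chV_log (σ := 1) (Or.inl rfl) (x := x) (w := w) (by simpa using h)
  have h1 : ∀ y : ℝ, exp (1 * (x + y * I - w)) / (1 - exp (1 * (x + y * I - w))) =
      -1 - chK (x + y * I - w) := fun y => by
    have h1 : exp (x + y * I - w) ≠ 1 := exp_ne_one_of_re (by simpa [sub_eq_zero] using h.ne)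
    have h3 := sub_ne_zero.2 h1
    have h4 := sub_ne_zero.2 h1.symm
    simp only [chK, one_mul]
    field_simp
    ring
  simp only [h1] at h0
  rw [intervalIntegral.integral_sub (by simp)
    ((continuous_chK_vert h.ne).intervalIntegrable _ _)] at h0
  simp only [intervalIntegral.integral_const, sub_neg_eq_add, real_smul] at h0
  rw [← sub_eq_zero.1 h0]
  push_cast
  ring

theorem vert_mem_chR {x₀ x₁ x y : ℝ} (h0 : x₀ ≤ x) (h1 : x ≤ x₁) (hy : y ∈ uIcc (-π) π) :
    (x : ℂ) + y * I ∈ chR x₀ x₁ := by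
  rw [uIcc_of_le (by linarith [Real.pi_pos])] at hy
  simpa [chR, h0, h1] using hy

theorem bot_mem_chR {x₀ x₁ x : ℝ} (h0 : x₀ ≤ x) (h1 : x ≤ x₁) :
    (x : ℂ) - π * I ∈ chR x₀ x₁ := by
  simp [chR, h0, h1, Real.pi_pos.le]

theorem top_mem_chR {x₀ x₁ x : ℝ} (h0 : x₀ ≤ x) (h1 : x ≤ x₁) :
    (x : ℂ) + π * I ∈ chR x₀ x₁ := by
  simp [chR, h0, h1, Real.pi_pos.le]

omit [NormedSpace ℂ E] in
theorem intervalIntegrable_vert {g : ℂ → E} {x₀ x₁ x : ℝ} (hc : ContinuousOn g (chR x₀ x₁))
    (h0 : x₀ ≤ x) (h1 : x ≤ x₁) :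
    IntervalIntegrable (fun y : ℝ => g (x + y * I)) MeasureTheory.volume (-π) π :=
  (hc.comp (by fun_prop) fun _ hy => vert_mem_chR h0 h1 hy).intervalIntegrable

/-- Cauchy's theorem on the rectangle -/
theorem rect0 {g : ℂ → E} {x₀ x₁ : ℝ} (hx : x₀ ≤ x₁) {s : Set ℂ} (hs : s.Countable)
    (hc : ContinuousOn g (chR x₀ x₁)) (hd : ∀ z ∈ chR x₀ x₁, z ∉ s → DifferentiableAt ℂ g z) :
    chH g x₀ x₁ + I • chV g x₁ - I • chV g x₀ = 0 := by
  have hπ : -π ≤ π := by linarith [Real.pi_pos]
  have := integral_boundary_rect_eq_zero_of_differentiable_on_off_countable g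
    ⟨x₀, -π⟩ ⟨x₁, π⟩ s hs (hc.mono ?_) ?_
  · simp only at this
    unfold chH chV
    rw [intervalIntegral.integral_sub]
    · simpa only [ofReal_neg, neg_mul, ← sub_eq_add_neg] using this
    · refine (hc.comp (f := fun x : ℝ => (x : ℂ) - π * I) (by fun_prop) fun x h => ?_)
        |>.intervalIntegrable
      rw [uIcc_of_le hx] at h
      exact bot_mem_chR h.1 h.2
    · refine (hc.comp (f := fun x : ℝ => (x : ℂ) + π * I) (by fun_prop) fun x h => ?_)
        |>.intervalIntegrable
      rw [uIcc_of_le hx] at h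
      exact top_mem_chR h.1 h.2
  · intro z hz
    simp only [mem_reProdIm, uIcc_of_le hx, uIcc_of_le hπ] at hz
    exact ⟨hz.1.1, hz.1.2, hz.2.1, hz.2.2⟩
  · rintro z ⟨hz, hzs⟩
    simp only [mem_reProdIm, min_eq_left hx, max_eq_right hx, min_eq_left hπ,
      max_eq_right hπ] at hz
    exact hd z ⟨hz.1.1.le, hz.1.2.le, hz.2.1.le, hz.2.2.le⟩ hzs

/-- Cauchy's formula on the rectangle with the periodic kernel -/
theorem rect1 [CompleteSpace E] {g : ℂ → E} {x₀ x₁ : ℝ} {w : ℂ} (h0 : x₀ < w.re) (h1 : w.re < x₁) (h2 : |w.im| < π)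
    (hd : ∀ z ∈ chR x₀ x₁, DifferentiableAt ℂ g z) :
    chH (fun z => chK (z - w) • g z) x₀ x₁ + I • chV (fun z => chK (z - w) • g z) x₁ -
      I • chV (fun z => chK (z - w) • g z) x₀ = (2 * π * I : ℂ) • g w := by
  have hx : x₀ ≤ x₁ := (h0.trans h1).le
  obtain ⟨h2a, h2b⟩ := abs_lt.1 h2
  have hw : w ∈ chR x₀ x₁ := ⟨h0.le, h1.le, h2a.le, h2b.le⟩
  have hne : ∀ z ∈ chR x₀ x₁, z ≠ w → exp (z - w) ≠ 1 := fun z hz hzw =>
    exp_ne_one_of_im (sub_ne_zero.2 hzw) (by
      rw [sub_im, abs_lt]; constructor <;> linarith [hz.2.2.1, hz.2.2.2])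
  set f : ℂ → E := fun z => (dslope exp 0 (z - w))⁻¹ • dslope g w z with hf
  have hfe : ∀ z, z ≠ w → f z = chK (z - w) • (g z - g w) := fun z hz => by
    have hz' := sub_ne_zero.2 hz
    simp only [hf, dslope_of_ne _ hz, dslope_of_ne _ hz', slope_def_module, sub_zero, exp_zero,
      smul_eq_mul, smul_smul, chK, mul_inv, inv_inv]
    congr 1
    field_simp
  have hfd : ∀ z ∈ chR x₀ x₁, z ≠ w → DifferentiableAt ℂ f z := fun z hz hzw => by
    have : f =ᶠ[𝓝 z] fun z => chK (z - w) • (g z - g w) :=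
      (eventually_ne_nhds hzw).mono fun z hz => hfe z hz
    refine DifferentiableAt.congr_of_eventuallyEq ?_ this
    exact ((differentiableAt_chK (hne z hz hzw)).comp z (by fun_prop : DifferentiableAt ℂ
      (fun z => z - w) z)).smul ((hd z hz).sub_const _)
  have hfc : ContinuousOn f (chR x₀ x₁) := fun z hz => by
    refine ContinuousAt.continuousWithinAt ?_
    rcases eq_or_ne z w with rfl | hzw
    · refine ContinuousAt.smul (ContinuousAt.inv₀ ?_ (by simp))
        (continuousAt_dslope_same.2 (hd z hz))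
      refine ContinuousAt.comp (f := fun x => x - z) ?_ (by fun_prop)
      rw [sub_self]
      exact continuousAt_dslope_same.2 differentiableAt_exp
    · exact (hfd z hz hzw).continuousAt
  have key := rect0 hx (countable_singleton w) hfc hfd
  have hH : chH f x₀ x₁ = chH (fun z => chK (z - w) • g z) x₀ x₁ := by
    refine intervalIntegral.integral_congr fun x _ => ?_
    have e1 : (x : ℂ) - π * I ≠ w := fun h => by
      have := congrArg Complex.im h
      simp at this
      linarith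
    have e2 : (x : ℂ) + π * I ≠ w := fun h => by
      have := congrArg Complex.im h
      simp at this
      linarith
    have e3 : chK (x - π * I - w) = chK (x + π * I - w) := by
      convert chK_per (x - w) using 2 <;> ring
    simp only [hfe _ e1, hfe _ e2, e3, smul_sub]
    abel
  have hV : ∀ x : ℝ, x₀ ≤ x → x ≤ x₁ → x ≠ w.re → chV f x =
      chV (fun z => chK (z - w) • g z) x - (∫ y in (-π)..π, chK (x + y * I - w)) • g w := by
    intro x hx0 hx1 hxw
    unfold chV
    have hK := continuous_chK_vert hxw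
    rw [← intervalIntegral.integral_smul_const, ← intervalIntegral.integral_sub]
    · refine intervalIntegral.integral_congr fun y _ => ?_
      have e1 : (x : ℂ) + y * I ≠ w := fun h => hxw (by simpa using congrArg Complex.re h)
      simp only [hfe _ e1, smul_sub]
    · refine ContinuousOn.intervalIntegrable (hK.continuousOn.smul ?_)
      have hgc : ContinuousOn g (chR x₀ x₁) := fun z hz => (hd z hz).continuousAt.continuousWithinAt
      exact hgc.comp (by fun_prop) fun _ hy => vert_mem_chR hx0 hx1 hy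
    · exact (hK.smul continuous_const).intervalIntegrable _ _
  rw [hH, hV x₁ hx le_rfl h1.ne', hV x₀ le_rfl hx h0.ne, chV_chK_right h1, chV_chK_left h0] at key
  rw [← sub_eq_zero, ← key]
  simp only [smul_sub, smul_smul, zero_smul, neg_smul, smul_neg, smul_zero]
  rw [mul_comm I]
  abel

end Crest.Agent.N250.W

end
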