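import Crest.Agent.N250.W.CHM1

/-!
# Row 250, sector toolbox (helper11): Cauchy–Heine for a cover by `m` pieces, finite order

Pieces `h j` bounded and holomorphic on `HS R (θ j - ε) (θ (j+1) + ε)`, jumps `≤ b e^{-μ re w}`.
Then all pieces have the same expansion `∑_{n<N} cfs n • e^{-n w} + O(e^{-ν re w})` for every
`ν ∈ [N-1, N]`, `ν < μ`, with explicit constants.
-/

set_option autoImplicit false
open Set Metric Filter Topology Complex
open scoped Real

noncomputable section

namespace Crest.Agent.N250.W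

variable {E : Type*} [NormedAddCommGroup E] [NormedSpace ℂ E]

/-- `n`-th Fourier mean over one period at abscissa `x`, piece by piece -/
def chms (h : ℕ → ℂ → E) (θ : ℕ → ℝ) (m n : ℕ) (x : ℝ) : E :=
  ((2 * π : ℂ))⁻¹ • chVs (fun j z => exp (n * z) • h j z) θ m x

/-- `n`-th asymptotic coefficient of a cover by `m` pieces -/
def cfs (h : ℕ → ℂ → E) (θ : ℕ → ℝ) (m n : ℕ) : E := limUnder atTop (chms h θ m n)

theorem norm_inv_two_pi_smul_le (a : E) : ‖((2 * π : ℂ))⁻¹ • a‖ ≤ ‖a‖ := by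
  rw [norm_smul, norm_inv, norm_two_pi]
  exact mul_le_of_le_one_left (norm_nonneg _)
    (inv_le_one_of_one_le₀ (by linarith [Real.pi_gt_three]))

omit [NormedSpace ℂ E] in
theorem exp_jump' {ν μ x b : ℝ} {a : E} (h : ‖a‖ ≤ b * Real.exp (-(μ * x))) :
    Real.exp (ν * x) * ‖a‖ ≤ b * Real.exp (-((μ - ν) * x)) := by
  refine (mul_le_mul_of_nonneg_left h (Real.exp_pos _).le).trans (le_of_eq ?_)
  rw [mul_left_comm, ← Real.exp_add]
  congr 2
  ring

theorem chms_sub_le {g : ℕ → ℂ → E} {θ : ℕ → ℝ} {m n : ℕ} {x₀ x₁ b μ : ℝ} (hθ : Cuts θ m)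
    (hx : x₀ ≤ x₁) (hn : n < μ) (hb : 0 ≤ b)
    (hd : ∀ j < m, ∀ z ∈ rc x₀ x₁ (θ j) (θ (j + 1)), DifferentiableAt ℂ (g j) z)
    (hp : ∀ z, g m (z + 2 * π * I) = g 0 z)
    (hB : ∀ j < m, ∀ x : ℝ, x₀ ≤ x → x ≤ x₁ →
      ‖g (j + 1) (x + θ (j + 1) * I) - g j (x + θ (j + 1) * I)‖ ≤ b * Real.exp (-(μ * x))) :
    ‖chms g θ m n x₀ - chms g θ m n x₁‖ ≤ m * (b * (Real.exp (-((μ - n) * x₀)) / (μ - n))) := by
  have hd' : ∀ j < m, ∀ z ∈ rc x₀ x₁ (θ j) (θ (j + 1)),
      DifferentiableAt ℂ (fun z => exp (n * z) • g j z) z := fun j hj z hz =>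
    (by fun_prop : DifferentiableAt ℂ (fun z : ℂ => exp (n * z)) z).smul (hd j hj z hz)
  have key := rects0 (g := fun j z => exp (n * z) • g j z) hθ hx countable_empty
    (fun j hj z hz => (hd' j hj z hz).continuousAt.continuousWithinAt)
    (fun j hj z hz _ => hd' j hj z hz) fun x => by
      simp only [add_tot hθ, exp_nat_add_two_pi, hp]
  have hH := norm_chHs_le (g := fun j z => exp (n * z) • g j z) (θ := θ) (m := m) hx
    (sub_pos.2 hn) hb fun j hj x h0 h1 => by
      rw [← smul_sub, norm_smul, norm_exp]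
      simpa using exp_jump' (ν := n) (hB j hj x h0 h1)
  have e : chHs (fun j z => exp (n * z) • g j z) θ m x₀ x₁ =
      I • (chVs (fun j z => exp (n * z) • g j z) θ m x₀ -
        chVs (fun j z => exp (n * z) • g j z) θ m x₁) := by
    rw [← sub_eq_zero, ← key, smul_sub]
    abel
  rw [e, norm_smul, norm_I, one_mul] at hH
  unfold chms
  rw [← smul_sub]
  exact (norm_inv_two_pi_smul_le _).trans hH

/-- the basic estimate, finite rectangle, several pieces -/
theorem ch_ests [CompleteSpace E] {g : ℕ → ℂ → E} {θ : ℕ → ℝ} {m i N : ℕ} {x₀ X M b μ ν δ : ℝ}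
    {w : ℂ} (hθ : Cuts θ m) (hi : i < m) (hδ : 0 < δ) (hδ' : δ ≤ π / 2) (hb : 0 ≤ b)
    (hν : ν ≤ N) (hν' : N - 1 ≤ ν) (hμ : ν < μ) (h0 : x₀ + 1 ≤ w.re) (h1 : w.re < X)
    (h2 : θ i + δ ≤ w.im) (h3 : w.im ≤ θ (i + 1) - δ)
    (hd : ∀ j < m, ∀ z ∈ rc x₀ X (θ j) (θ (j + 1)), DifferentiableAt ℂ (g j) z)
    (hM : ∀ j < m, ∀ z ∈ rc x₀ X (θ j) (θ (j + 1)), ‖g j z‖ ≤ M)
    (hp : ∀ z, g m (z + 2 * π * I) = g 0 z)
    (hB : ∀ j < m, ∀ x : ℝ, x₀ ≤ x → x ≤ X →
      ‖g (j + 1) (x + θ (j + 1) * I) - g j (x + θ (j + 1) * I)‖ ≤ b * Real.exp (-(μ * x))) :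
    ‖g i w - psum (fun n => chms g θ m n X) N w‖ ≤
      (2 * M * Real.exp (ν * x₀) + m * b * Real.exp (-((μ - ν) * x₀)) / ((μ - ν) * Real.sin δ)) *
        Real.exp (-(ν * w.re)) + M / (X - w.re) := by
  have hx : x₀ ≤ X := by linarith
  have hgc : ∀ j < m, ContinuousOn (g j) (rc x₀ X (θ j) (θ (j + 1))) :=
    fun j hj z hz => (hd j hj z hz).continuousAt.continuousWithinAt
  have key := rects1 (g := fun j z => exp (N * (z - w)) • g j z) (x₀ := x₀) (x₁ := X) (w := w)
    hθ hi (by linarith) h1 (by linarith) (by linarith) (fun j hj z hz =>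
      (by fun_prop : DifferentiableAt ℂ (fun z : ℂ => exp (N * (z - w))) z).smul (hd j hj z hz))
    fun x => by simp only [add_tot hθ, hp, add_sub_right_comm _ _ w, exp_nat_add_two_pi]
  simp only [sub_self, mul_zero, exp_zero, one_smul] at key
  have hR : chVs (fun j z => chK (z - w) • exp (N * (z - w)) • g j z) θ m X =
      chVs (fun j z => chK (z - w) • g j z) θ m X +
        (2 * π : ℂ) • psum (fun n => chms g θ m n X) N w := by
    have hc : ∀ j < m, ∀ n : ℕ, ContinuousOn (fun y : ℝ => exp (-(n * w)) •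
        exp (n * (X + y * I)) • g j (X + y * I)) (uIcc (θ j) (θ (j + 1))) := fun j hj n =>
      ContinuousOn.const_smul ((by fun_prop : ContinuousOn
        (fun y : ℝ => exp (n * (X + y * I))) _).smul
        (contOn_vert (hgc j hj) hx le_rfl (hθ.mono j hj))) _
    have e : (2 * π : ℂ) • psum (fun n => chms g θ m n X) N w =
        ∑ j ∈ Finset.range m, ∫ y in (θ j)..(θ (j + 1)),
          ∑ n ∈ Finset.range N, exp (-(n * w)) • exp (n * (X + y * I)) • g j (X + y * I) := by
      rw [Finset.sum_congr rfl fun j hj => intervalIntegral.integral_finsetSum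
        (f := fun (n : ℕ) (y : ℝ) => exp (-(n * w)) • exp (n * (X + y * I)) • g j (X + y * I))
        fun n _ => (hc j (Finset.mem_range.1 hj) n).intervalIntegrable, Finset.sum_comm]
      simp only [psum, chms, chVs, intervalIntegral.integral_smul, ← Finset.smul_sum]
      rw [Finset.smul_sum]
      refine Finset.sum_congr rfl fun n _ => ?_
      rw [smul_comm, smul_inv_smul₀ two_pi_ne]
    rw [e]
    unfold chVs
    rw [← Finset.sum_add_distrib]
    refine Finset.sum_congr rfl fun j hj => ?_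
    have hj := Finset.mem_range.1 hj
    rw [← intervalIntegral.integral_add]
    · refine intervalIntegral.integral_congr fun y _ => ?_
      have h3 : exp (X + y * I - w) ≠ 1 := exp_ne_one_of_re (by simpa [sub_eq_zero] using h1.ne')
      simp only [smul_smul]
      rw [mul_comm, chK_expand h3, add_smul, Finset.sum_smul]
      congr 1
      refine Finset.sum_congr rfl fun n _ => ?_
      rw [← exp_add]
      congr 2
      ring
    · exact ((continuous_chK_vert h1.ne').continuousOn.smul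
        (contOn_vert (hgc j hj) hx le_rfl (hθ.mono j hj))).intervalIntegrable
    · exact (continuousOn_finsetSum _ fun n _ => hc j hj n).intervalIntegrable
  have hs : 0 < Real.sin δ := Real.sin_pos_of_pos_of_lt_pi hδ (by linarith [Real.pi_pos])
  have hM0 : 0 ≤ M :=
    (norm_nonneg _).trans (hM i hi _ (pt_mem_rc le_rfl hx le_rfl (hθ.mono i hi)))
  have b1 : ‖chVs (fun j z => chK (z - w) • g j z) θ m X‖ ≤ M / (X - w.re) * (2 * π) := by
    refine norm_chVs_le hθ fun j hj y hy hy' => ?_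
    rw [norm_smul, div_eq_inv_mul]
    refine mul_le_mul ?_ (hM j hj _ (pt_mem_rc hx le_rfl hy hy')) (norm_nonneg _)
      (inv_nonneg.2 (by linarith))
    simpa using norm_chK_le_right (z := X + y * I - w) (by simpa using h1)
  have b2 : ‖chVs (fun j z => chK (z - w) • exp (N * (z - w)) • g j z) θ m x₀‖ ≤
      2 * M * Real.exp (ν * x₀) * Real.exp (-(ν * w.re)) * (2 * π) := by
    refine norm_chVs_le hθ fun j hj y hy hy' => ?_
    rw [norm_smul, norm_smul, norm_exp]
    have e1 : (N * (x₀ + y * I - w) : ℂ).re = N * (x₀ - w.re) := by simp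
    have e2 : Real.exp (N * (x₀ - w.re)) ≤ Real.exp (ν * x₀) * Real.exp (-(ν * w.re)) := by
      rw [← Real.exp_add]
      exact Real.exp_le_exp.2 (by nlinarith)
    rw [e1]
    have k1 := norm_chK_le_left (z := x₀ + y * I - w) (by simp; linarith)
    have k2 := hM j hj _ (pt_mem_rc le_rfl hx hy hy')
    calc _ ≤ 2 * (Real.exp (ν * x₀) * Real.exp (-(ν * w.re)) * M) := by gcongr
      _ = _ := by ring
  have hc0 : 0 ≤ b / Real.sin δ * Real.exp (-(ν * w.re)) := by positivity
  have b3 := norm_chHs_le (g := fun j z => chK (z - w) • exp (N * (z - w)) • g j z) (θ := θ)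
    (m := m) hx (sub_pos.2 hμ) hc0 fun j hj x hx0 hx1 => by
      rw [← smul_sub, ← smul_sub, norm_smul, norm_smul, norm_exp, ← mul_assoc]
      have e1 : (N * (x + θ (j + 1) * I - w) : ℂ).re = N * (x + θ (j + 1) * I - w : ℂ).re := by
        simp
      have e2 : (x + θ (j + 1) * I - w : ℂ).im = θ (j + 1) - w.im := by simp
      have e3 : (x + θ (j + 1) * I - w : ℂ).re = -w.re + x := by simp; ring
      have a1 := hθ.le (Nat.zero_le (j + 1)) hj
      have a2 := hθ.le (show j + 1 ≤ m from hj) le_rfl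
      have a3 := hθ.le (Nat.zero_le i) hi.le
      have a4 := hθ.le (show i + 1 ≤ m from hi) le_rfl
      have k1 := norm_chKN_le (z := x + θ (j + 1) * I - w) hδ hδ' (by
        rw [e2]
        rcases le_or_gt (j + 1) i with a | a
        · exact le_abs.2 (Or.inr (by linarith [hθ.le a hi.le]))
        · exact le_abs.2 (Or.inl (by linarith [hθ.le (show i + 1 ≤ j + 1 from a) hj])))
        (by rw [e2, abs_le]; constructor <;> linarith [hθ.tot]) hν hν'
      have k2 := exp_jump' (ν := ν) (hB j hj x hx0 hx1)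
      rw [e1]
      refine (mul_le_mul_of_nonneg_right k1 (norm_nonneg _)).trans ?_
      rw [e3, mul_add, Real.exp_add, mul_neg, mul_assoc, mul_assoc]
      calc _ ≤ (Real.sin δ)⁻¹ * (Real.exp (-(ν * w.re)) * (b * Real.exp (-((μ - ν) * x)))) := by
            gcongr
        _ = _ := by ring
  have e : (2 * π * I : ℂ) • (g i w - psum (fun n => chms g θ m n X) N w) =
      chHs (fun j z => chK (z - w) • exp (N * (z - w)) • g j z) θ m x₀ X +
        I • chVs (fun j z => chK (z - w) • g j z) θ m X -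
        I • chVs (fun j z => chK (z - w) • exp (N * (z - w)) • g j z) θ m x₀ := by
    rw [smul_sub, ← key, hR, smul_add, smul_smul, mul_comm I]
    abel
  have hn := congrArg norm e
  rw [norm_smul, norm_mul, norm_two_pi, norm_I, mul_one] at hn
  have h4 := (norm_sub_le _ _).trans (add_le_add (norm_add_le _ _) le_rfl) |>.trans_eq' hn.symm
  rw [norm_smul, norm_smul, norm_I, one_mul, one_mul] at h4
  have hπ : 1 ≤ 2 * π := by linarith [Real.pi_gt_three]
  refine le_of_mul_le_mul_left ?_ Real.two_pi_pos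
  have h5 := le_mul_of_one_le_left ((norm_nonneg _).trans b3) hπ
  calc _ ≤ 2 * π * (m * (b / Real.sin δ * Real.exp (-(ν * w.re)) *
        (Real.exp (-((μ - ν) * x₀)) / (μ - ν)))) + M / (X - w.re) * (2 * π) +
        2 * M * Real.exp (ν * x₀) * Real.exp (-(ν * w.re)) * (2 * π) := by linarith
    _ = _ := by
      have := (sub_pos.2 hμ).ne'
      field_simp
      ring

/-- Cauchy–Heine data for a cover by `m` pieces with jumps `≤ b e^{-μ re w}`;
`h m` is the piece `h 0` seen after one turn -/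
structure CHM (h : ℕ → ℂ → E) (θ : ℕ → ℝ) (m : ℕ) (R ε M b μ : ℝ) : Prop where
  pos : 0 < ε
  cuts : Cuts θ m
  diff : ∀ j < m, DifferentiableOn ℂ (h j) (HS R (θ j - ε) (θ (j + 1) + ε))
  bdd : ∀ j < m, ∀ w ∈ HS R (θ j - ε) (θ (j + 1) + ε), ‖h j w‖ ≤ M
  per : ∀ w, h m (w + 2 * π * I) = h 0 w
  jump : ∀ j < m, ∀ w ∈ HS R (θ (j + 1) - ε) (θ (j + 1) + ε),
    ‖h (j + 1) w - h j w‖ ≤ b * Real.exp (-(μ * w.re))

theorem rc_subset_HS {R ε s x₀ x₁ α β : ℝ} (hR : R < x₀) (hs : |s| < ε) :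
    rc x₀ x₁ (α + s) (β + s) ⊆ HS R (α - ε) (β + ε) := fun z hz => by
  obtain ⟨h1, h2⟩ := abs_lt.1 hs
  exact ⟨hR.trans_le hz.1, by linarith [hz.2.2.1], by linarith [hz.2.2.2]⟩

theorem tendsto_exp_neg_mul (c : ℝ) {κ : ℝ} (hκ : 0 < κ) :
    Tendsto (fun x : ℝ => c * Real.exp (-(κ * x))) atTop (𝓝 0) := by
  simpa using (Real.tendsto_exp_neg_atTop_nhds_zero.comp
    (tendsto_id.const_mul_atTop hκ)).const_mul c

namespace CHM

variable {h : ℕ → ℂ → E} {θ : ℕ → ℝ} {m : ℕ} {R ε M b μ : ℝ}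

theorem dAt (H : CHM h θ m R ε M b μ) {j : ℕ} (hj : j < m) {z : ℂ}
    (hz : z ∈ HS R (θ j - ε) (θ (j + 1) + ε)) : DifferentiableAt ℂ (h j) z :=
  (H.diff j hj).differentiableAt ((isOpen_HS _ _ _).mem_nhds hz)

theorem jump' (H : CHM h θ m R ε M b μ) {j : ℕ} (hj : j < m) {x s : ℝ} (hx : R < x)
    (hs : |s| < ε) : ‖h (j + 1) (x + (θ (j + 1) + s : ℝ) * I) - h j (x + (θ (j + 1) + s : ℝ) * I)‖ ≤
      b * Real.exp (-(μ * x)) := by
  obtain ⟨h1, h2⟩ := abs_lt.1 hs
  simpa using H.jump j hj (x + (θ (j + 1) + s : ℝ) * I)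
    ⟨by simpa using hx, by simp; linarith, by simp; linarith⟩

theorem abs0 (H : CHM h θ m R ε M b μ) : |(0 : ℝ)| < ε := by simpa using H.pos

theorem b_nonneg (H : CHM h θ m R ε M b μ) : 0 ≤ b :=
  nonneg_of_mul_nonneg_left ((norm_nonneg _).trans
    (H.jump' H.cuts.pos (lt_add_one R) H.abs0)) (Real.exp_pos _)

theorem M_nonneg (H : CHM h θ m R ε M b μ) : 0 ≤ M :=
  (norm_nonneg _).trans (H.bdd 0 H.cuts.pos _ (rc_subset_HS (lt_add_one R) H.abs0
    (pt_mem_rc le_rfl le_rfl le_rfl (by linarith [H.cuts.mono 0 H.cuts.pos]))))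

theorem chms_sub (H : CHM h θ m R ε M b μ) {n : ℕ} (hn : n < μ) {x₀ x₁ : ℝ} (hR : R < x₀)
    (hx : x₀ ≤ x₁) :
    ‖chms h θ m n x₀ - chms h θ m n x₁‖ ≤ m * b / (μ - n) * Real.exp (-((μ - n) * x₀)) := by
  refine (chms_sub_le H.cuts hx hn H.b_nonneg (fun j hj z hz => H.dAt hj
    (rc_subset_HS hR H.abs0 (by simpa using hz))) H.per fun j hj x hx0 _ => by
      simpa using H.jump' hj (hR.trans_le hx0) H.abs0).trans (le_of_eq (by ring))

/-- the Fourier means converge to the coefficient -/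
theorem tendsto [CompleteSpace E] (H : CHM h θ m R ε M b μ) {n : ℕ} (hn : n < μ) :
    Tendsto (chms h θ m n) atTop (𝓝 (cfs h θ m n)) := by
  refine tendsto_nhds_limUnder (cauchySeq_tendsto_of_complete ?_)
  rw [Metric.cauchySeq_iff']
  intro η hη
  obtain ⟨x, hx1, hx2⟩ := (((tendsto_exp_neg_mul (m * b / (μ - n)) (sub_pos.2 hn)).eventually
    (gt_mem_nhds hη)).and (eventually_gt_atTop R)).exists
  refine ⟨x, fun y hy => ?_⟩
  rw [dist_comm, dist_eq_norm]
  exact (H.chms_sub hn hx2 hy).trans_lt hx1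

theorem rate [CompleteSpace E] (H : CHM h θ m R ε M b μ) {n : ℕ} (hn : n < μ) {x : ℝ}
    (hx : R < x) :
    ‖chms h θ m n x - cfs h θ m n‖ ≤ m * b / (μ - n) * Real.exp (-((μ - n) * x)) :=
  le_of_tendsto ((tendsto_const_nhds.sub (H.tendsto hn)).norm)
    ((eventually_ge_atTop x).mono fun _ hy => H.chms_sub hn hx hy)

theorem chms_le (H : CHM h θ m R ε M b μ) (n : ℕ) {x : ℝ} (hx : R < x) :
    ‖chms h θ m n x‖ ≤ M * Real.exp (n * x) := by
  have : ‖chVs (fun j z => exp (n * z) • h j z) θ m x‖ ≤ M * Real.exp (n * x) * (2 * π) := by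
    refine norm_chVs_le H.cuts fun j hj y hy hy' => ?_
    rw [norm_smul, norm_exp, mul_comm]
    refine mul_le_mul (H.bdd j hj _ (rc_subset_HS hx H.abs0
      (pt_mem_rc le_rfl le_rfl (by linarith) (by linarith)))) (le_of_eq ?_) (Real.exp_pos _).le
      H.M_nonneg
    simp
  unfold chms
  rw [norm_smul, norm_inv, norm_two_pi, inv_mul_le_iff₀ Real.two_pi_pos, mul_comm]
  exact this

/-- bound of the coefficients -/
theorem cfs_le [CompleteSpace E] (H : CHM h θ m R ε M b μ) {n : ℕ} (hn : n < μ) {x : ℝ}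
    (hx : R < x) :
    ‖cfs h θ m n‖ ≤ M * Real.exp (n * x) + m * b / (μ - n) * Real.exp (-((μ - n) * x)) := by
  have := norm_sub_le (chms h θ m n x) (chms h θ m n x - cfs h θ m n)
  rw [sub_sub_cancel] at this
  linarith [H.rate hn hx, H.chms_le n hx]

/-- moving the cuts does not change the limit of the means -/
theorem shift (H : CHM h θ m R ε M b μ) (n : ℕ) {s x : ℝ} (hs : |s| < ε) (hx : R < x) :
    ‖chms h (fun j => θ j + s) m n x - chms h θ m n x‖ ≤
      m * b * ε * Real.exp (-((μ - n) * x)) := by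
  set φ : ℕ → ℝ → E := fun j y => exp (n * (x + y * I)) • h j (x + y * I) with hφ
  obtain ⟨h1, h2⟩ := abs_lt.1 hs
  have hε := H.pos
  have hi : ∀ j < m, ∀ a c, a ∈ Ioo (θ j - ε) (θ (j + 1) + ε) → c ∈ Ioo (θ j - ε) (θ (j + 1) + ε) →
      IntervalIntegrable (φ j) MeasureTheory.volume a c := fun j hj a c ha hc => by
    refine ContinuousOn.intervalIntegrable fun y hy => ?_
    have hy := ordConnected_Ioo.uIcc_subset ha hc hy
    refine ContinuousAt.continuousWithinAt (ContinuousAt.smul (by fun_prop) ?_)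
    exact ContinuousAt.comp (f := fun y : ℝ => (x : ℂ) + y * I)
      (H.dAt hj ⟨by simpa using hx, by simpa using hy.1, by simpa using hy.2⟩).continuousAt
      (by fun_prop)
  have hp : ∀ y : ℝ, φ m (θ m + y) = φ 0 (θ 0 + y) := fun y => by
    have : (x : ℂ) + (θ m + y : ℝ) * I = x + (θ 0 + y : ℝ) * I + 2 * π * I := by
      rw [H.cuts.tot]; push_cast; ring
    simp only [hφ, this, exp_nat_add_two_pi, H.per]
  have hi1 : ∀ j < m, IntervalIntegrable (fun y => φ j (θ (j + 1) + y)) MeasureTheory.volume 0 s :=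
    fun j hj => by
      have := H.cuts.mono j hj
      simpa using (hi j hj (θ (j + 1)) (θ (j + 1) + s) ⟨by linarith, by linarith⟩
        ⟨by linarith, by linarith⟩).comp_add_left (θ (j + 1))
  have hi2 : ∀ j ≤ m, IntervalIntegrable (fun y => φ j (θ j + y)) MeasureTheory.volume 0 s := by
    have : ∀ j < m, IntervalIntegrable (fun y => φ j (θ j + y)) MeasureTheory.volume 0 s :=
      fun j hj => by
        have := H.cuts.mono j hj
        simpa using (hi j hj (θ j) (θ j + s) ⟨by linarith, by linarith⟩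
          ⟨by linarith, by linarith⟩).comp_add_left (θ j)
    intro j hj
    rcases hj.lt_or_eq with hj | rfl
    · exact this j hj
    · simpa only [hp] using this 0 H.cuts.pos
  have e : chVs (fun j z => exp (n * z) • h j z) (fun j => θ j + s) m x -
      chVs (fun j z => exp (n * z) • h j z) θ m x =
      ∑ j ∈ Finset.range m, ∫ y in (0 : ℝ)..s, (φ j (θ (j + 1) + y) - φ (j + 1) (θ (j + 1) + y)) := by
    rw [Finset.sum_congr rfl fun j hj => intervalIntegral.integral_sub
      (hi1 j (Finset.mem_range.1 hj)) (hi2 (j + 1) (Finset.mem_range.1 hj)),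
      Finset.sum_sub_distrib, sum_shift (A := fun j => ∫ y in (0 : ℝ)..s, φ j (θ j + y))
        (by simp only [hp]), ← Finset.sum_sub_distrib]
    unfold chVs
    rw [← Finset.sum_sub_distrib]
    refine Finset.sum_congr rfl fun j hj => ?_
    have hj := Finset.mem_range.1 hj
    have := H.cuts.mono j hj
    rw [intervalIntegral.integral_comp_add_left (φ j), intervalIntegral.integral_comp_add_left (φ j),
      add_zero, add_zero]
    exact intervalIntegral.integral_interval_sub_interval_comm'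
      (hi j hj _ _ ⟨by linarith, by linarith⟩ ⟨by linarith, by linarith⟩)
      (hi j hj _ _ ⟨by linarith, by linarith⟩ ⟨by linarith, by linarith⟩)
      (hi j hj _ _ ⟨by linarith, by linarith⟩ ⟨by linarith, by linarith⟩)
  unfold chms
  rw [← smul_sub, e]
  refine (norm_inv_two_pi_smul_le _).trans ((norm_sum_le_of_le _
    (n := fun _ => b * Real.exp (-((μ - n) * x)) * ε) fun j hj => ?_).trans
    (le_of_eq (by simp; ring)))
  refine (intervalIntegral.norm_integral_le_of_norm_le_const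
    (C := b * Real.exp (-((μ - n) * x))) fun y hy => ?_).trans ?_
  · have hy' : |y| < ε := by
      rcases mem_uIoc.1 hy with hy | hy <;> rw [abs_lt] <;> constructor <;> linarith [hy.1, hy.2]
    simp only [hφ]
    rw [← smul_sub, norm_smul, norm_exp, norm_sub_rev]
    simpa using exp_jump' (ν := n) (H.jump' (Finset.mem_range.1 hj) hx hy')
  · rw [sub_zero]
    have := H.b_nonneg
    gcongr

/-- **Cauchy–Heine, several pieces, finite order**: for `N - 1 ≤ ν ≤ N`, `ν < μ`. -/
theorem asy [CompleteSpace E] (H : CHM h θ m R ε M b μ) {i N : ℕ} (hi : i < m) {δ x₀ ν : ℝ}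
    (hδ : 0 < δ) (hδ' : δ ≤ π / 2) (hgap : 2 * δ ≤ θ (i + 1) - θ i) (hR : R < x₀)
    (hν : ν ≤ N) (hν' : N - 1 ≤ ν) (hμ : ν < μ) {w : ℂ} (h0 : x₀ + 1 ≤ w.re)
    (h1 : θ i - ε + δ < w.im) (h2 : w.im < θ (i + 1) + ε - δ) :
    ‖h i w - psum (cfs h θ m) N w‖ ≤
      (2 * M * Real.exp (ν * x₀) + m * b * Real.exp (-((μ - ν) * x₀)) / ((μ - ν) * Real.sin δ)) *
        Real.exp (-(ν * w.re)) := by
  obtain ⟨s, hs, hs1, hs2⟩ : ∃ s : ℝ, |s| < ε ∧ θ i + s + δ ≤ w.im ∧ w.im ≤ θ (i + 1) + s - δ := by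
    have := H.pos
    rcases le_total w.im (θ i + δ) with a | a
    · exact ⟨w.im - (θ i + δ), abs_lt.2 ⟨by linarith, by linarith⟩, by linarith, by linarith⟩
    rcases le_total w.im (θ (i + 1) - δ) with c | c
    · exact ⟨0, by simpa, by linarith, by linarith⟩
    · exact ⟨w.im - (θ (i + 1) - δ), abs_lt.2 ⟨by linarith, by linarith⟩, by linarith, by linarith⟩
  have t2 : Tendsto (fun x => psum (fun n => chms h (fun j => θ j + s) m n x) N w)
      atTop (𝓝 (psum (cfs h θ m) N w)) := by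
    refine tendsto_finsetSum _ fun n hn => Tendsto.const_smul ?_ _
    have hn : (n : ℝ) < μ := by
      have : (n : ℝ) + 1 ≤ N := by exact_mod_cast Finset.mem_range.1 hn
      linarith
    simpa using (squeeze_zero_norm' ((eventually_gt_atTop R).mono fun x hx => H.shift n hs hx)
      (tendsto_exp_neg_mul _ (sub_pos.2 hn))).add (H.tendsto hn)
  have t3 : Tendsto (fun x : ℝ => M / (x - w.re)) atTop (𝓝 0) :=
    tendsto_const_nhds.div_atTop (tendsto_atTop_add_const_right _ _ tendsto_id)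
  have t4 := ((tendsto_const_nhds (x := h i w)).sub t2).norm.sub t3
  rw [sub_zero] at t4
  refine le_of_tendsto t4 ((eventually_gt_atTop w.re).mono fun X hX => ?_)
  have := ch_ests (g := h) (X := X) (H.cuts.add s) hi hδ hδ' H.b_nonneg hν hν' hμ h0 hX hs1 hs2
    (fun j hj z hz => H.dAt hj (rc_subset_HS hR hs hz))
    (fun j hj z hz => H.bdd j hj _ (rc_subset_HS hR hs hz)) H.per
    fun j hj x hx _ => H.jump' hj (hR.trans_le hx) hs
  linarith

end CHM

end Crest.Agent.N250.W

end
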