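import Crest.Agent.N250.W.CH

/-!
# Row 250, sector toolbox (helper11): Cauchy formula for several pieces

Pieces `g j` on the strips `θ j ≤ im z ≤ θ (j+1)`, `j < m`, `θ m = θ 0 + 2π`.
-/

set_option autoImplicit false
open Set Metric Filter Topology Complex
open scoped Real

noncomputable section

namespace Crest.Agent.N250.W

variable {E : Type*} [NormedAddCommGroup E] [NormedSpace ℂ E]

/-- closed rectangle -/
def rc (x₀ x₁ α β : ℝ) : Set ℂ := {z | x₀ ≤ z.re ∧ z.re ≤ x₁ ∧ α ≤ z.im ∧ z.im ≤ β}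

/-- vertical integral over one period, piece by piece -/
def chVs (g : ℕ → ℂ → E) (θ : ℕ → ℝ) (m : ℕ) (x : ℝ) : E :=
  ∑ j ∈ Finset.range m, ∫ y in (θ j)..(θ (j + 1)), g j (x + y * I)

/-- horizontal integrals of the jumps -/
def chHs (g : ℕ → ℂ → E) (θ : ℕ → ℝ) (m : ℕ) (x₀ x₁ : ℝ) : E :=
  ∑ j ∈ Finset.range m, ∫ x in x₀..x₁, (g (j + 1) (x + θ (j + 1) * I) - g j (x + θ (j + 1) * I))

/-- a system of cuts: increasing, total width one period -/
structure Cuts (θ : ℕ → ℝ) (m : ℕ) : Prop where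
  mono : ∀ j < m, θ j ≤ θ (j + 1)
  tot : θ m = θ 0 + 2 * π

theorem Cuts.le {θ : ℕ → ℝ} {m : ℕ} (h : Cuts θ m) {j k : ℕ} (hjk : j ≤ k) (hk : k ≤ m) :
    θ j ≤ θ k := by
  induction k, hjk using Nat.le_induction with
  | base => exact le_rfl
  | succ k _ ih => exact (ih (by omega)).trans (h.mono k (by omega))

theorem Cuts.pos {θ : ℕ → ℝ} {m : ℕ} (h : Cuts θ m) : 0 < m := by
  rcases Nat.eq_zero_or_pos m with rfl | hm
  · linarith [h.tot, Real.pi_pos]
  · exact hm

theorem Cuts.add {θ : ℕ → ℝ} {m : ℕ} (h : Cuts θ m) (s : ℝ) : Cuts (fun j => θ j + s) m :=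
  ⟨fun j hj => by linarith [h.mono j hj], by linarith [h.tot]⟩

theorem pt_mem_rc {x₀ x₁ α β x y : ℝ} (h0 : x₀ ≤ x) (h1 : x ≤ x₁) (h2 : α ≤ y) (h3 : y ≤ β) :
    (x : ℂ) + y * I ∈ rc x₀ x₁ α β := by
  simp [rc, h0, h1, h2, h3]

omit [NormedSpace ℂ E] in
theorem contOn_vert {g : ℂ → E} {x₀ x₁ α β x : ℝ} (hc : ContinuousOn g (rc x₀ x₁ α β))
    (h0 : x₀ ≤ x) (h1 : x ≤ x₁) (h : α ≤ β) :
    ContinuousOn (fun y : ℝ => g (x + y * I)) (uIcc α β) :=
  hc.comp (by fun_prop) fun _ hy => by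
    rw [uIcc_of_le h] at hy
    exact pt_mem_rc h0 h1 hy.1 hy.2

omit [NormedSpace ℂ E] in
theorem contOn_hor {g : ℂ → E} {x₀ x₁ α β y : ℝ} (hc : ContinuousOn g (rc x₀ x₁ α β))
    (h0 : α ≤ y) (h1 : y ≤ β) (h : x₀ ≤ x₁) :
    ContinuousOn (fun x : ℝ => g (x + y * I)) (uIcc x₀ x₁) :=
  hc.comp (by fun_prop) fun _ hx => by
    rw [uIcc_of_le h] at hx
    exact pt_mem_rc hx.1 hx.2 h0 h1

omit [NormedSpace ℂ E] in
theorem sum_shift {A : ℕ → E} {m : ℕ} (h : A m = A 0) :
    ∑ j ∈ Finset.range m, A (j + 1) = ∑ j ∈ Finset.range m, A j := by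
  have h1 := Finset.sum_range_succ A m
  rw [Finset.sum_range_succ', h] at h1
  exact add_right_cancel h1

/-- Cauchy's theorem, summed over the pieces -/
theorem rects0 {g : ℕ → ℂ → E} {θ : ℕ → ℝ} {m : ℕ} {x₀ x₁ : ℝ} (hθ : Cuts θ m) (hx : x₀ ≤ x₁)
    {s : Set ℂ} (hs : s.Countable)
    (hc : ∀ j < m, ContinuousOn (g j) (rc x₀ x₁ (θ j) (θ (j + 1))))
    (hd : ∀ j < m, ∀ z ∈ rc x₀ x₁ (θ j) (θ (j + 1)), z ∉ s → DifferentiableAt ℂ (g j) z)
    (hp : ∀ x : ℝ, g m (x + θ m * I) = g 0 (x + θ 0 * I)) :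
    chHs g θ m x₀ x₁ + I • chVs g θ m x₁ - I • chVs g θ m x₀ = 0 := by
  have hb : ∀ j ≤ m, ContinuousOn (fun x : ℝ => g j (x + θ j * I)) (uIcc x₀ x₁) := by
    intro j hj
    rcases hj.lt_or_eq with hj | rfl
    · exact contOn_hor (hc j hj) le_rfl (hθ.mono j hj) hx
    · simp only [hp]
      exact contOn_hor (hc 0 hθ.pos) le_rfl (hθ.mono 0 hθ.pos) hx
  have e : chHs g θ m x₀ x₁ = ∑ j ∈ Finset.range m,
      ((∫ x in x₀..x₁, g j (x + θ j * I)) - ∫ x in x₀..x₁, g j (x + θ (j + 1) * I)) := by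
    rw [Finset.sum_sub_distrib,
      ← sum_shift (A := fun j => ∫ x in x₀..x₁, g j (x + θ j * I)) (by simp only [hp]),
      ← Finset.sum_sub_distrib]
    refine Finset.sum_congr rfl fun j hj => ?_
    have hj := Finset.mem_range.1 hj
    exact intervalIntegral.integral_sub (hb (j + 1) hj).intervalIntegrable
      (contOn_hor (hc j hj) (hθ.mono j hj) le_rfl hx).intervalIntegrable
  rw [e]
  unfold chVs
  rw [Finset.smul_sum, Finset.smul_sum, ← Finset.sum_add_distrib, ← Finset.sum_sub_distrib]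
  refine Finset.sum_eq_zero fun j hj => ?_
  have hj := Finset.mem_range.1 hj
  have hm := hθ.mono j hj
  refine integral_boundary_rect_eq_zero_of_differentiable_on_off_countable (g j)
    ⟨x₀, θ j⟩ ⟨x₁, θ (j + 1)⟩ s hs ((hc j hj).mono ?_) ?_
  · intro z hz
    simp only [mem_reProdIm, uIcc_of_le hx, uIcc_of_le hm] at hz
    exact ⟨hz.1.1, hz.1.2, hz.2.1, hz.2.2⟩
  · rintro z ⟨hz, hzs⟩
    simp only [mem_reProdIm, min_eq_left hx, max_eq_right hx, min_eq_left hm,
      max_eq_right hm] at hz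
    exact hd j hj z ⟨hz.1.1.le, hz.1.2.le, hz.2.1.le, hz.2.2.le⟩ hzs

theorem add_tot {θ : ℕ → ℝ} {m : ℕ} (hθ : Cuts θ m) (z : ℂ) :
    z + θ m * I = z + θ 0 * I + 2 * π * I := by
  rw [hθ.tot]
  push_cast
  ring

theorem chK_add_two_pi (z : ℂ) : chK (z + 2 * π * I) = chK z := by
  unfold chK
  rw [exp_add, exp_two_pi_mul_I, mul_one]

theorem exp_nat_add_two_pi (n : ℕ) (z : ℂ) : exp (n * (z + 2 * π * I)) = exp (n * z) := by
  rw [exp_nat_mul, exp_nat_mul, exp_add, exp_two_pi_mul_I, mul_one]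

theorem chVs_chK {θ : ℕ → ℝ} {m : ℕ} (hθ : Cuts θ m) {x : ℝ} {w : ℂ} (h : x ≠ w.re) :
    ∑ j ∈ Finset.range m, ∫ y in (θ j)..(θ (j + 1)), chK (x + y * I - w) =
      ∫ y in (-π)..π, chK (x + y * I - (w - (θ 0 + π : ℝ) * I)) := by
  rw [intervalIntegral.sum_integral_adjacent_intervals
    fun _ _ => (continuous_chK_vert h).intervalIntegrable _ _]
  have := intervalIntegral.integral_comp_add_right (a := -π) (b := π)
    (fun y : ℝ => chK (x + y * I - w)) (θ 0 + π)
  rw [show -π + (θ 0 + π) = θ 0 by ring, show π + (θ 0 + π) = θ m by rw [hθ.tot]; ring] at this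
  rw [← this]
  refine intervalIntegral.integral_congr fun y _ => ?_
  congr 1
  push_cast
  ring

/-- Cauchy's formula with the periodic kernel, several pieces -/
theorem rects1 [CompleteSpace E] {g : ℕ → ℂ → E} {θ : ℕ → ℝ} {m i : ℕ} {x₀ x₁ : ℝ} {w : ℂ}
    (hθ : Cuts θ m) (hi : i < m) (h0 : x₀ < w.re) (h1 : w.re < x₁) (h2 : θ i < w.im)
    (h3 : w.im < θ (i + 1))
    (hd : ∀ j < m, ∀ z ∈ rc x₀ x₁ (θ j) (θ (j + 1)), DifferentiableAt ℂ (g j) z)
    (hp : ∀ x : ℝ, g m (x + θ m * I) = g 0 (x + θ 0 * I)) :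
    chHs (fun j z => chK (z - w) • g j z) θ m x₀ x₁ +
      I • chVs (fun j z => chK (z - w) • g j z) θ m x₁ -
      I • chVs (fun j z => chK (z - w) • g j z) θ m x₀ = (2 * π * I : ℂ) • g i w := by
  classical
  have hx : x₀ ≤ x₁ := (h0.trans h1).le
  have hw : w ∈ rc x₀ x₁ (θ i) (θ (i + 1)) := ⟨h0.le, h1.le, h2.le, h3.le⟩
  have hne : ∀ j < m, ∀ z ∈ rc x₀ x₁ (θ j) (θ (j + 1)), z ≠ w → exp (z - w) ≠ 1 :=
    fun j hj z hz hzw => exp_ne_one_of_im (sub_ne_zero.2 hzw) (by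
      have a1 := hθ.le (Nat.zero_le j) hj.le
      have a2 := hθ.le (show j + 1 ≤ m from hj) le_rfl
      have a3 := hθ.le (Nat.zero_le i) hi.le
      have a4 := hθ.le (show i + 1 ≤ m from hi) le_rfl
      rw [sub_im, abs_lt]
      constructor <;> linarith [hz.2.2.1, hz.2.2.2, hθ.tot])
  have hcut : ∀ j ≤ m, ∀ x : ℝ, (x : ℂ) + θ j * I ≠ w := fun j hj x h => by
    have e : θ j = w.im := by simpa using congrArg Complex.im h
    rcases le_or_gt j i with a | a
    · linarith [hθ.le a hi.le]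
    · linarith [hθ.le (show i + 1 ≤ j from a) hj]
  set f : ℕ → ℂ → E := fun j z => if j = i then (dslope exp 0 (z - w))⁻¹ • dslope (g i) w z
    else chK (z - w) • (g j z - g i w) with hf
  have hfe : ∀ j z, z ≠ w → f j z = chK (z - w) • (g j z - g i w) := fun j z hz => by
    have hz' := sub_ne_zero.2 hz
    simp only [hf]
    split_ifs with hj
    · subst hj
      simp only [dslope_of_ne _ hz, dslope_of_ne _ hz', slope_def_module, sub_zero, exp_zero,
        smul_eq_mul, smul_smul, chK, mul_inv, inv_inv]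
      congr 1
      field_simp
    · rfl
  have hfd : ∀ j < m, ∀ z ∈ rc x₀ x₁ (θ j) (θ (j + 1)), z ≠ w → DifferentiableAt ℂ (f j) z :=
    fun j hj z hz hzw => by
      have : f j =ᶠ[𝓝 z] fun z => chK (z - w) • (g j z - g i w) :=
        (eventually_ne_nhds hzw).mono fun z hz => hfe j z hz
      refine DifferentiableAt.congr_of_eventuallyEq ?_ this
      exact ((differentiableAt_chK (hne j hj z hz hzw)).comp z (by fun_prop : DifferentiableAt ℂ
        (fun z => z - w) z)).smul ((hd j hj z hz).sub_const _)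
  have hfc : ∀ j < m, ContinuousOn (f j) (rc x₀ x₁ (θ j) (θ (j + 1))) := fun j hj z hz => by
    refine ContinuousAt.continuousWithinAt ?_
    rcases eq_or_ne z w with rfl | hzw
    · have hji : j = i := by
        rcases lt_trichotomy j i with a | a | a
        · linarith [hθ.le (show j + 1 ≤ i from a) hi.le, hz.2.2.2]
        · exact a
        · linarith [hθ.le (show i + 1 ≤ j from a) hj.le, hz.2.2.1]
      subst hji
      simp only [hf, if_true]
      refine ContinuousAt.smul (ContinuousAt.inv₀ ?_ (by simp))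
        (continuousAt_dslope_same.2 (hd j hj z hz))
      refine ContinuousAt.comp (f := fun x => x - z) ?_ (by fun_prop)
      rw [sub_self]
      exact continuousAt_dslope_same.2 differentiableAt_exp
    · exact (hfd j hj z hz hzw).continuousAt
  have key := rects0 hθ hx (countable_singleton w) hfc hfd fun x => by
    rw [hfe _ _ (hcut m le_rfl x), hfe _ _ (hcut 0 (Nat.zero_le m) x), hp, add_tot hθ,
      add_sub_right_comm, chK_add_two_pi]
  have hH : chHs f θ m x₀ x₁ = chHs (fun j z => chK (z - w) • g j z) θ m x₀ x₁ := by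
    refine Finset.sum_congr rfl fun j hj => intervalIntegral.integral_congr fun x _ => ?_
    simp only [hfe _ _ (hcut (j + 1) (Finset.mem_range.1 hj) x), smul_sub]
    abel
  have hV : ∀ x : ℝ, x₀ ≤ x → x ≤ x₁ → x ≠ w.re → chVs f θ m x =
      chVs (fun j z => chK (z - w) • g j z) θ m x -
        (∫ y in (-π)..π, chK (x + y * I - (w - (θ 0 + π : ℝ) * I))) • g i w := by
    intro x hx0 hx1 hxw
    unfold chVs
    have hK := continuous_chK_vert hxw
    rw [← chVs_chK hθ hxw, Finset.sum_smul, ← Finset.sum_sub_distrib]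
    refine Finset.sum_congr rfl fun j hj => ?_
    have hj := Finset.mem_range.1 hj
    rw [← intervalIntegral.integral_smul_const, ← intervalIntegral.integral_sub]
    · refine intervalIntegral.integral_congr fun y _ => ?_
      have e1 : (x : ℂ) + y * I ≠ w := fun h => hxw (by simpa using congrArg Complex.re h)
      simp only [hfe _ _ e1, smul_sub]
    · exact (hK.continuousOn.smul (contOn_vert
        (fun z hz => (hd j hj z hz).continuousAt.continuousWithinAt) hx0 hx1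
        (hθ.mono j hj))).intervalIntegrable
    · exact (hK.smul continuous_const).intervalIntegrable _ _
  rw [hH, hV x₁ hx le_rfl h1.ne', hV x₀ le_rfl hx h0.ne, chV_chK_right (by simpa using h1),
    chV_chK_left (by simpa using h0)] at key
  rw [← sub_eq_zero, ← key]
  simp only [smul_sub, smul_smul, zero_smul, neg_smul, smul_neg, smul_zero]
  rw [mul_comm I]
  abel

theorem norm_chVs_le {g : ℕ → ℂ → E} {θ : ℕ → ℝ} {m : ℕ} (hθ : Cuts θ m) {x C : ℝ}
    (h : ∀ j < m, ∀ y : ℝ, θ j ≤ y → y ≤ θ (j + 1) → ‖g j (x + y * I)‖ ≤ C) :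
    ‖chVs g θ m x‖ ≤ C * (2 * π) := by
  refine (norm_sum_le_of_le _ (n := fun j => C * (θ (j + 1) - θ j)) fun j hj => ?_).trans ?_
  · have hj := Finset.mem_range.1 hj
    have hm := hθ.mono j hj
    have := intervalIntegral.norm_integral_le_of_norm_le_const (a := θ j) (b := θ (j + 1))
      (f := fun y : ℝ => g j (x + y * I)) fun y hy => by
        rw [uIoc_of_le hm] at hy
        exact h j hj y hy.1.le hy.2
    rwa [abs_of_nonneg (sub_nonneg.2 hm)] at this
  · rw [← Finset.mul_sum, Finset.sum_range_sub, hθ.tot, add_sub_cancel_left]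

theorem integral_exp_neg_le {κ x₀ x₁ : ℝ} (hκ : 0 < κ) :
    ∫ x in x₀..x₁, Real.exp (-(κ * x)) ≤ Real.exp (-(κ * x₀)) / κ := by
  have hd : ∀ x ∈ uIcc x₀ x₁, HasDerivAt (fun x => -(Real.exp (-(κ * x)) / κ))
      (Real.exp (-(κ * x))) x := fun x _ => by
    have := (((hasDerivAt_id' x).const_mul κ).fun_neg.exp.div_const κ).fun_neg
    refine this.congr_deriv ?_
    field_simp
  rw [intervalIntegral.integral_eq_sub_of_hasDerivAt hd
    (Continuous.intervalIntegrable (by fun_prop) _ _)]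
  have := div_pos (Real.exp_pos (-(κ * x₁))) hκ
  linarith

theorem norm_chHs_le {g : ℕ → ℂ → E} {θ : ℕ → ℝ} {m : ℕ} {x₀ x₁ C κ : ℝ} (hx : x₀ ≤ x₁)
    (hκ : 0 < κ) (hC : 0 ≤ C) (h : ∀ j < m, ∀ x : ℝ, x₀ ≤ x → x ≤ x₁ →
      ‖g (j + 1) (x + θ (j + 1) * I) - g j (x + θ (j + 1) * I)‖ ≤ C * Real.exp (-(κ * x))) :
    ‖chHs g θ m x₀ x₁‖ ≤ m * (C * (Real.exp (-(κ * x₀)) / κ)) := by
  refine (norm_sum_le_of_le _ (n := fun _ => C * (Real.exp (-(κ * x₀)) / κ))
    fun j hj => ?_).trans (by simp)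
  refine (intervalIntegral.norm_integral_le_of_norm_le hx
    (Eventually.of_forall fun x hx => h j (Finset.mem_range.1 hj) x hx.1.le hx.2)
    (Continuous.intervalIntegrable (by fun_prop) _ _)).trans ?_
  rw [intervalIntegral.integral_const_mul]
  exact mul_le_mul_of_nonneg_left (integral_exp_neg_le hκ) hC

/-- the kernel `e^{Nz}/(e^z-1)` is `O(e^{ν re z})` for every `ν ∈ [N-1, N]` -/
theorem norm_chKN_le {z : ℂ} {δ ν : ℝ} {N : ℕ} (hδ : 0 < δ) (hδ' : δ ≤ π / 2) (h1 : δ ≤ |z.im|)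
    (h2 : |z.im| ≤ 2 * π - δ) (hν : ν ≤ N) (hν' : N - 1 ≤ ν) :
    ‖chK z‖ * Real.exp (N * z.re) ≤ (Real.sin δ)⁻¹ * Real.exp (ν * z.re) := by
  have hs : 0 < Real.sin δ := Real.sin_pos_of_pos_of_lt_pi hδ (by linarith [Real.pi_pos])
  rcases le_total z.re 0 with h | h
  · exact mul_le_mul (norm_chK_le_of_im hδ hδ' h1 h2)
      (Real.exp_le_exp.2 (by nlinarith)) (Real.exp_pos _).le (inv_pos.2 hs).le
  · have e : chK z = -exp (-z) * chK (-z) := by
      have h3 : exp z ≠ 1 := exp_ne_one_of_im (fun h0 => by simp [h0] at h1; linarith)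
        (by linarith)
      have h4 := sub_ne_zero.2 h3
      have h5 := sub_ne_zero.2 h3.symm
      have h6 := exp_ne_zero z
      simp only [chK, exp_neg]
      field_simp
      ring
    have k := norm_chK_le_of_im (z := -z) hδ hδ' (by simpa using h1) (by simpa using h2)
    rw [e, norm_mul, norm_neg, norm_exp, mul_comm (Real.exp _), mul_assoc, ← Real.exp_add]
    exact mul_le_mul k (Real.exp_le_exp.2 (by simp; nlinarith)) (Real.exp_pos _).le
      (inv_pos.2 hs).le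

end Crest.Agent.N250.W

end
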