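import Mathlib

/-!
# Row 250, sector toolbox (helper92): maximum principle for approximately holomorphic functions

Log coordinate `w`: `s = e^w`, `t = e^{-w/q}`; sectors are half strips.
-/

set_option autoImplicit false
open Set Metric Filter Topology

noncomputable section

namespace Crest.Agent.N250.W

variable {E : Type*} [NormedAddCommGroup E] [NormedSpace ℂ E]

/-- half strip -/
def HS (R a b : ℝ) : Set ℂ := {w | R < w.re ∧ a < w.im ∧ w.im < b}

/-- `H` is holomorphic up to the error `e` on every disc of radius `≤ η` inside `U` -/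
def Apx (U : Set ℂ) (η : ℝ) (H : ℂ → E) (e : ℂ → ℝ) : Prop :=
  ∀ w₀ r, 0 < r → r ≤ η → closedBall w₀ r ⊆ U →
    ∃ g : ℂ → E, DiffContOnCl ℂ g (ball w₀ r) ∧ ∀ w ∈ closedBall w₀ r, ‖g w - H w‖ ≤ e w

theorem isOpen_HS (R a b : ℝ) : IsOpen (HS R a b) :=
  (isOpen_lt continuous_const Complex.continuous_re).inter
    ((isOpen_lt continuous_const Complex.continuous_im).inter
      (isOpen_lt Complex.continuous_im continuous_const))

theorem convex_HS (R a b : ℝ) : Convex ℝ (HS R a b) :=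
  (convex_halfSpace_re_gt R).inter ((convex_halfSpace_im_gt a).inter (convex_halfSpace_im_lt b))

theorem HS_mono {R a b R' a' b' : ℝ} (hR : R ≤ R') (ha : a ≤ a') (hb : b' ≤ b) :
    HS R' a' b' ⊆ HS R a b := fun _ hw => ⟨hR.trans_lt hw.1, ha.trans_lt hw.2.1, hw.2.2.trans_le hb⟩

theorem Apx.mono {U U' : Set ℂ} {η η' : ℝ} {H : ℂ → E} {e e' : ℂ → ℝ} (h : Apx U η H e)
    (hU : U' ⊆ U) (hη : η' ≤ η) (he : ∀ w ∈ U', e w ≤ e' w) : Apx U' η' H e' := by
  intro w₀ r hr hrη hs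
  obtain ⟨g, hg, hge⟩ := h w₀ r hr (hrη.trans hη) (hs.trans hU)
  exact ⟨g, hg, fun w hw => (hge w hw).trans (he w (hs hw))⟩

theorem apx_of_differentiableOn {U : Set ℂ} {H : ℂ → E} (h : DifferentiableOn ℂ H U) (η : ℝ) :
    Apx U η H fun _ => 0 := by
  intro w₀ r hr _ hs
  refine ⟨H, DifferentiableOn.diffContOnCl (h.mono ?_), fun w _ => by simp⟩
  rwa [closure_ball w₀ hr.ne']

/-- Pieces: if every small disc inside `U` lies in one of the open pieces `S i`, on which `h i` is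
holomorphic and `e`-close to `H`, then `H` is approximately holomorphic. -/
theorem apx_of_pieces {ι : Type*} {U : Set ℂ} {η : ℝ} {H : ℂ → E} {e : ℂ → ℝ} (S : ι → Set ℂ)
    (h : ι → ℂ → E) (hd : ∀ i, DifferentiableOn ℂ (h i) (S i))
    (he : ∀ i, ∀ w ∈ S i, w ∈ U → ‖h i w - H w‖ ≤ e w)
    (hc : ∀ w₀ r, 0 < r → r ≤ η → closedBall w₀ r ⊆ U → ∃ i, closedBall w₀ r ⊆ S i) :
    Apx U η H e := by
  intro w₀ r hr hrη hs
  obtain ⟨i, hi⟩ := hc w₀ r hr hrη hs
  refine ⟨h i, DifferentiableOn.diffContOnCl ((hd i).mono ?_), fun w hw => he i w (hi hw) (hs hw)⟩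
  rwa [closure_ball w₀ hr.ne']

theorem abs_re_sub_le {w w₀ : ℂ} {r : ℝ} (h : w ∈ closedBall w₀ r) : |w.re - w₀.re| ≤ r := by
  rw [mem_closedBall, dist_eq_norm] at h
  simpa using (Complex.abs_re_le_norm (w - w₀)).trans h

theorem abs_im_sub_le {w w₀ : ℂ} {r : ℝ} (h : w ∈ closedBall w₀ r) : |w.im - w₀.im| ≤ r := by
  rw [mem_closedBall, dist_eq_norm] at h
  simpa using (Complex.abs_im_le_norm (w - w₀)).trans h

theorem sq_add_sq_of_sphere {w w₀ : ℂ} {r : ℝ} (h : w ∈ sphere w₀ r) :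
    (w.re - w₀.re) ^ 2 + (w.im - w₀.im) ^ 2 = r ^ 2 := by
  rw [mem_sphere, dist_eq_norm] at h
  rw [← h, Complex.sq_norm, Complex.normSq_apply]
  simp only [Complex.sub_re, Complex.sub_im]
  ring

/-- the supremum argument -/
theorem am {X : Type*} {U : Set X} {V : X → ℝ} {B κ : ℝ} (hκ0 : 0 ≤ κ) (hκ : κ < 1)
    (hb : ∃ M, ∀ w ∈ U, V w ≤ M)
    (h : ∀ M, (∀ w ∈ U, V w ≤ M) → ∀ w ∈ U, V w ≤ B ∨ ∃ k, k ≤ κ ∧ V w ≤ k * M + (1 - k) * B) :
    ∀ w ∈ U, V w ≤ B := by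
  intro w hw
  obtain ⟨M₀, hM₀⟩ := hb
  have hbd : BddAbove (V '' U) := ⟨M₀, by rintro _ ⟨x, hx, rfl⟩; exact hM₀ x hx⟩
  have hne : (V '' U).Nonempty := ⟨_, w, hw, rfl⟩
  have hM : ∀ x ∈ U, V x ≤ sSup (V '' U) := fun x hx => le_csSup hbd ⟨x, hx, rfl⟩
  refine (hM w hw).trans ?_
  by_contra hlt
  push Not at hlt
  have : sSup (V '' U) ≤ κ * sSup (V '' U) + (1 - κ) * B := by
    refine csSup_le hne ?_
    rintro _ ⟨x, hx, rfl⟩
    rcases h _ hM x hx with h1 | ⟨k, hk, h1⟩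
    · nlinarith
    · nlinarith
  nlinarith

/-- maximum modulus on a disc with a holomorphic weight -/
theorem disc {g : ℂ → E} {l : ℂ → ℂ} {w₀ : ℂ} {r A : ℝ} (hr : 0 < r)
    (hg : DiffContOnCl ℂ g (ball w₀ r)) (hl : Differentiable ℂ l)
    (hA : ∀ w ∈ sphere w₀ r, ‖g w‖ * Real.exp (l w).re ≤ A) :
    ‖g w₀‖ * Real.exp (l w₀).re ≤ A := by
  have hn : ∀ w, ‖Complex.exp (l w) • g w‖ = ‖g w‖ * Real.exp (l w).re := fun w => by
    rw [norm_smul, Complex.norm_exp, mul_comm]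
  rw [← hn]
  refine Complex.norm_le_of_forall_mem_frontier_norm_le (f := fun w => Complex.exp (l w) • g w)
    (U := ball w₀ r) isBounded_ball (hl.cexp.diffContOnCl.smul hg) (fun w hw => ?_)
    (subset_closure (mem_ball_self hr))
  rw [frontier_ball w₀ hr.ne'] at hw
  rw [hn]
  exact hA w hw

/-- one step: the value at the centre of a disc on which `H` is approximately holomorphic.
`φ` is the weight, `l` a holomorphic function with `re l ≤ φ - γ` on the circle. -/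
theorem step {g H : ℂ → E} {l : ℂ → ℂ} {φ e : ℂ → ℝ} {w₀ : ℂ} {r M ε γ : ℝ} (hr : 0 < r)
    (hγ : 0 ≤ γ) (hg : DiffContOnCl ℂ g (ball w₀ r)) (hl : Differentiable ℂ l)
    (hge : ∀ w ∈ closedBall w₀ r, ‖g w - H w‖ ≤ e w)
    (h0 : (l w₀).re = φ w₀) (h1 : ∀ w ∈ sphere w₀ r, (l w).re ≤ φ w - γ)
    (hM : ∀ w ∈ closedBall w₀ r, ‖H w‖ * Real.exp (φ w) ≤ M)
    (hε : ∀ w ∈ closedBall w₀ r, e w * Real.exp (φ w) ≤ ε) :
    ‖H w₀‖ * Real.exp (φ w₀) ≤ Real.exp (-γ) * M + 2 * ε := by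
  have hc : w₀ ∈ closedBall w₀ r := mem_closedBall_self hr.le
  have hε0 : 0 ≤ ε :=
    (mul_nonneg ((norm_nonneg _).trans (hge w₀ hc)) (Real.exp_pos _).le).trans (hε w₀ hc)
  have hk : Real.exp (-γ) ≤ 1 := Real.exp_le_one_iff.2 (by linarith)
  have h2 : ‖g w₀‖ * Real.exp (l w₀).re ≤ Real.exp (-γ) * (M + ε) := by
    refine disc hr hg hl fun w hw => ?_
    have hw' := sphere_subset_closedBall hw
    have h3 : ‖g w‖ ≤ ‖H w‖ + e w := by
      have := norm_add_le (H w) (g w - H w)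
      rw [add_sub_cancel] at this
      linarith [hge w hw']
    have h4 : Real.exp (l w).re ≤ Real.exp (-γ) * Real.exp (φ w) := by
      rw [← Real.exp_add]
      exact Real.exp_le_exp.2 (by linarith [h1 w hw])
    calc ‖g w‖ * Real.exp (l w).re ≤ (‖H w‖ + e w) * (Real.exp (-γ) * Real.exp (φ w)) :=
          mul_le_mul h3 h4 (Real.exp_pos _).le ((norm_nonneg _).trans h3)
      _ = Real.exp (-γ) * (‖H w‖ * Real.exp (φ w) + e w * Real.exp (φ w)) := by ring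
      _ ≤ _ := mul_le_mul_of_nonneg_left (add_le_add (hM w hw') (hε w hw')) (Real.exp_pos _).le
  rw [h0] at h2
  have h5 : ‖H w₀‖ ≤ ‖g w₀‖ + e w₀ := by
    have := norm_sub_le (g w₀) (g w₀ - H w₀)
    rw [sub_sub_cancel] at this
    linarith [hge w₀ hc]
  have h6 := mul_le_mul_of_nonneg_right h5 (Real.exp_pos (φ w₀)).le
  have h7 := hε w₀ hc
  nlinarith

end Crest.Agent.N250.W

end
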